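import Vale.Agent.P022.H191.Split

/-! Density of the primes which split completely, and the comparison of two extensions. -/

namespace Vale.Agent.P022.H191

open NumberField Ideal IsDedekindDomain Filter Topology
open scoped ENNReal Pointwise
open Vale.Agent.P001.H200.Ded

section

variable {K L : Type} [Field K] [NumberField K] [Field L] [NumberField L] [Algebra K L]

/-- primes above as a fibre -/
noncomputable def fibEquiv (𝔭 : HeightOneSpectrum (𝓞 K)) :
    ((HeightOneSpectrum.under (𝓞 K) : HeightOneSpectrum (𝓞 L) → HeightOneSpectrum (𝓞 K)) ⁻¹' {𝔭}) ≃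
      𝔭.asIdeal.primesOver (𝓞 L) where
  toFun P := ⟨P.1.asIdeal, P.1.isPrime, ⟨by
    have h : HeightOneSpectrum.under (𝓞 K) P.1 = 𝔭 := P.2
    exact congrArg HeightOneSpectrum.asIdeal h.symm⟩⟩
  invFun P := ⟨⟨P.1, P.2.1, by
    intro h
    apply 𝔭.ne_bot
    have h2 := P.2.2.over
    rw [h2, h]
    exact Ideal.comap_bot_of_injective _ (FaithfulSMul.algebraMap_injective (𝓞 K) (𝓞 L))⟩,
    HeightOneSpectrum.ext P.2.2.over.symm⟩
  left_inv _ := rfl
  right_inv _ := rfl

/-- the constant sum over a fibre -/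
theorem tsum_fib (𝔭 : HeightOneSpectrum (𝓞 K)) (c : ℝ≥0∞) :
    ∑' _ : ((HeightOneSpectrum.under (𝓞 K) : HeightOneSpectrum (𝓞 L) → HeightOneSpectrum (𝓞 K))
      ⁻¹' {𝔭}), c = ((𝔭.asIdeal.primesOver (𝓞 L)).ncard : ℝ≥0∞) * c := by
  have hpm : 𝔭.asIdeal.IsMaximal := 𝔭.isMaximal
  have hfin : (𝔭.asIdeal.primesOver (𝓞 L)).Finite := IsDedekindDomain.primesOver_finite _ _
  have : Finite (𝔭.asIdeal.primesOver (𝓞 L)) := hfin
  rw [ENNReal.tsum_const, ENat.card_congr (fibEquiv 𝔭), ENat.card_eq_coe_natCard,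
    Nat.card_coe_set_eq]
  rfl

variable (K L) in
/-- sum over the completely split primes -/
noncomputable def splitSum (s : ℝ) : ℝ≥0∞ :=
  ∑' 𝔭 : {𝔭 : HeightOneSpectrum (𝓞 K) | Split K L 𝔭.asIdeal}, ENNReal.ofReal (nm K 𝔭 s)

variable (K L) in
theorem split_upper [IsGalois K L] : ∃ C : ℝ, ∀ᶠ s : ℝ in 𝓝[>] 1,
    (Module.finrank K L : ℝ≥0∞) * splitSum K L s ≤
      ENNReal.ofReal (Real.log (1 / (s - 1)) + C) := by
  classical
  obtain ⟨C, hC⟩ := upper L
  refine ⟨C, ?_⟩
  filter_upwards [hC] with s hs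
  refine le_trans ?_ hs
  rw [← ENNReal.tsum_fiberwise _ (HeightOneSpectrum.under (𝓞 K) :
    HeightOneSpectrum (𝓞 L) → HeightOneSpectrum (𝓞 K)), splitSum, ← ENNReal.tsum_mul_left]
  refine le_trans (ENNReal.tsum_le_tsum fun 𝔭 => ?_)
    (ENNReal.tsum_comp_le_tsum_of_injective Subtype.val_injective
      (fun 𝔭 : HeightOneSpectrum (𝓞 K) => ∑' P : ((HeightOneSpectrum.under (𝓞 K) :
        HeightOneSpectrum (𝓞 L) → HeightOneSpectrum (𝓞 K)) ⁻¹' {𝔭}), ENNReal.ofReal (nm L P s)))
  obtain ⟨h1, h2⟩ := ncard_split 𝔭.1 𝔭.2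
  rw [← h1, ← tsum_fib]
  refine ENNReal.tsum_le_tsum fun P => ?_
  apply le_of_eq
  congr 1
  unfold nm
  rw [← h2 _ (fibEquiv 𝔭.1 P).2]
  rfl

variable (K L) in
theorem split_lower [IsGalois K L] : ∃ C : ℝ, ∀ᶠ s : ℝ in 𝓝[>] 1,
    ENNReal.ofReal (Real.log (1 / (s - 1)) - C) ≤
      (Module.finrank K L : ℝ≥0∞) * splitSum K L s := by
  classical
  obtain ⟨C, hC⟩ := lower L
  -- the finite set of bad primes of `L`
  have hB : {P : HeightOneSpectrum (𝓞 L) |
      ¬ Unram K L (HeightOneSpectrum.under (𝓞 K) P).asIdeal}.Finite := by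
    have h1 := finite_ramified K L
    have h2 : ∀ 𝔭 : HeightOneSpectrum (𝓞 K), ((HeightOneSpectrum.under (𝓞 K) :
        HeightOneSpectrum (𝓞 L) → HeightOneSpectrum (𝓞 K)) ⁻¹' {𝔭}).Finite := by
      intro 𝔭
      have hpm : 𝔭.asIdeal.IsMaximal := 𝔭.isMaximal
      have hfin : (𝔭.asIdeal.primesOver (𝓞 L)).Finite := IsDedekindDomain.primesOver_finite _ _
      have : Finite (𝔭.asIdeal.primesOver (𝓞 L)) := hfin
      have h3 := Finite.of_equiv _ (fibEquiv (L := L) 𝔭).symm
      exact Set.toFinite _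
    refine (h1.biUnion fun 𝔭 _ => h2 𝔭).subset fun P hP => ?_
    simp only [Set.mem_iUnion]
    exact ⟨_, hP, rfl⟩
  set B := {P : HeightOneSpectrum (𝓞 L) |
      ¬ Unram K L (HeightOneSpectrum.under (𝓞 K) P).asIdeal} with hBdef
  have : Finite B := hB
  refine ⟨C + Nat.card B, ?_⟩
  filter_upwards [hC, self_mem_nhdsWithin] with s hs hs1
  have hs1' : (1 : ℝ) < s := hs1
  set S := {𝔭 : HeightOneSpectrum (𝓞 K) | Split K L 𝔭.asIdeal} with hS
  have hnm1 : ∀ P : HeightOneSpectrum (𝓞 L), ENNReal.ofReal (nm L P s) ≤ 1 := by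
    intro P
    have := nm_le_half P hs1'.le
    exact ENNReal.ofReal_le_one.2 (by linarith)
  have key : degOneSum L s ≤ (Module.finrank K L : ℝ≥0∞) * splitSum K L s +
      ENNReal.ofReal (Nat.card B) := by
    rw [degOneSum, tsum_subtype {p : HeightOneSpectrum (𝓞 L) | (absNorm p.asIdeal).Prime}
      (fun P => ENNReal.ofReal (nm L P s))]
    have h1 : ∀ P : HeightOneSpectrum (𝓞 L),
        Set.indicator {p : HeightOneSpectrum (𝓞 L) | (absNorm p.asIdeal).Prime}
          (fun P => ENNReal.ofReal (nm L P s)) P ≤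
        S.indicator (fun 𝔭 => ENNReal.ofReal (nm K 𝔭 s)) (HeightOneSpectrum.under (𝓞 K) P) +
          B.indicator (fun _ => 1) P := by
      intro P
      by_cases hP : (absNorm P.asIdeal).Prime
      · rw [Set.indicator_of_mem (show P ∈ {p : HeightOneSpectrum (𝓞 L) |
          (absNorm p.asIdeal).Prime} from hP)]
        by_cases hPB : P ∈ B
        · rw [Set.indicator_of_mem hPB]
          exact (hnm1 P).trans le_add_self
        · rw [Set.indicator_of_notMem hPB, add_zero]
          have hun : Unram K L (HeightOneSpectrum.under (𝓞 K) P).asIdeal := by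
            by_contra hcon
            exact hPB hcon
          obtain ⟨d1, d2⟩ := deg_one K P hP
          have hmem : HeightOneSpectrum.under (𝓞 K) P ∈ S := by
            refine ⟨(HeightOneSpectrum.under (𝓞 K) P).isPrime,
              (HeightOneSpectrum.under (𝓞 K) P).ne_bot, hun, P.asIdeal, P.isPrime, rfl, ?_⟩
            intro x y hxy
            have hxy' : y = x := RingOfIntegers.ext hxy
            rw [hxy', d1, ← neg_sub]
            exact P.asIdeal.neg_mem (d2 x)
          rw [Set.indicator_of_mem hmem]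
          unfold nm
          rw [d1]
      · rw [Set.indicator_of_notMem (show P ∉ {p : HeightOneSpectrum (𝓞 L) |
          (absNorm p.asIdeal).Prime} from hP)]
        exact zero_le
    refine (ENNReal.tsum_le_tsum h1).trans ?_
    rw [ENNReal.tsum_add]
    apply add_le_add
    · rw [← ENNReal.tsum_fiberwise _ (HeightOneSpectrum.under (𝓞 K) :
        HeightOneSpectrum (𝓞 L) → HeightOneSpectrum (𝓞 K)), splitSum,
        tsum_subtype S (fun 𝔭 => ENNReal.ofReal (nm K 𝔭 s)), ← ENNReal.tsum_mul_left]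
      refine ENNReal.tsum_le_tsum fun 𝔭 => ?_
      have h2 : ∀ P : ((HeightOneSpectrum.under (𝓞 K) : HeightOneSpectrum (𝓞 L) →
          HeightOneSpectrum (𝓞 K)) ⁻¹' {𝔭}),
          S.indicator (fun 𝔭 => ENNReal.ofReal (nm K 𝔭 s)) (HeightOneSpectrum.under (𝓞 K) P.1) =
          S.indicator (fun 𝔭 => ENNReal.ofReal (nm K 𝔭 s)) 𝔭 := by
        intro P
        have : HeightOneSpectrum.under (𝓞 K) P.1 = 𝔭 := P.2
        rw [this]
      rw [tsum_congr h2, tsum_fib]
      gcongr
      exact ncard_le 𝔭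
    · rw [← tsum_subtype, ENNReal.tsum_const, mul_one, ENat.card_eq_coe_natCard,
        ENNReal.ofReal_natCast]
      rfl
  have h3 := hs.trans key
  rw [← sub_sub, ENNReal.ofReal_sub _ (Nat.cast_nonneg _)]
  exact tsub_le_iff_right.2 h3

end

theorem tendsto_log_one_div : Tendsto (fun s : ℝ => Real.log (1 / (s - 1))) (𝓝[>] 1) atTop := by
  have h1 : Tendsto (fun s : ℝ => s - 1) (𝓝[>] 1) (𝓝[>] 0) := by
    refine tendsto_nhdsWithin_iff.2 ⟨?_, ?_⟩
    · have : Tendsto (fun s : ℝ => s - 1) (𝓝 1) (𝓝 (1 - 1)) :=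
        (continuous_id.sub continuous_const).tendsto _
      rw [sub_self] at this
      exact this.mono_left nhdsWithin_le_nhds
    · filter_upwards [self_mem_nhdsWithin] with s hs
      have hs' : (1 : ℝ) < s := hs
      exact sub_pos.2 hs'
  have h2 : Tendsto (fun s : ℝ => (s - 1)⁻¹) (𝓝[>] 1) atTop := tendsto_inv_nhdsGT_zero.comp h1
  have h3 := Real.tendsto_log_atTop.comp h2
  refine h3.congr fun s => ?_
  simp

theorem of_log_le {a b c : ℝ} (h : ∀ᶠ s : ℝ in 𝓝[>] 1,
    a * Real.log (1 / (s - 1)) ≤ b * Real.log (1 / (s - 1)) + c) : a ≤ b := by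
  by_contra hcon
  have hab : 0 < a - b := by linarith [not_le.1 hcon]
  have h2 := (tendsto_log_one_div.const_mul_atTop hab).eventually_gt_atTop c
  obtain ⟨s, h3, h4⟩ := (h.and h2).exists
  nlinarith

theorem bauer : Bauer_statement := by
  intro K L E _ _ _ _ _ _ _ _ hL hE hfin
  classical
  obtain ⟨C1, h1⟩ := split_lower K L
  obtain ⟨C2, h2⟩ := split_upper K E
  set S := {𝔭 : HeightOneSpectrum (𝓞 K) | Split K L 𝔭.asIdeal} with hS
  set T := {𝔭 : HeightOneSpectrum (𝓞 K) | Split K E 𝔭.asIdeal} with hT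
  have hinj : Function.Injective (fun 𝔭 : HeightOneSpectrum (𝓞 K) => 𝔭.asIdeal) :=
    fun p q h => HeightOneSpectrum.ext h
  have hST : (S \ T).Finite := by
    refine (hfin.preimage hinj.injOn).subset fun 𝔭 h𝔭 => ?_
    exact ⟨h𝔭.1, h𝔭.2⟩
  have : Finite (S \ T : Set (HeightOneSpectrum (𝓞 K))) := hST
  set m : ℕ := Nat.card (S \ T : Set (HeightOneSpectrum (𝓞 K))) with hm
  have key : ∀ s : ℝ, 1 < s → splitSum K L s ≤ splitSum K E s + ENNReal.ofReal m := by
    intro s hs
    rw [splitSum, splitSum, tsum_subtype S (fun 𝔭 => ENNReal.ofReal (nm K 𝔭 s)),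
      tsum_subtype T (fun 𝔭 => ENNReal.ofReal (nm K 𝔭 s))]
    have h3 : ∀ 𝔭 : HeightOneSpectrum (𝓞 K), S.indicator (fun 𝔭 => ENNReal.ofReal (nm K 𝔭 s)) 𝔭 ≤
        T.indicator (fun 𝔭 => ENNReal.ofReal (nm K 𝔭 s)) 𝔭 + (S \ T).indicator (fun _ => 1) 𝔭 := by
      intro 𝔭
      by_cases hs1 : 𝔭 ∈ S
      · rw [Set.indicator_of_mem hs1]
        by_cases ht : 𝔭 ∈ T
        · rw [Set.indicator_of_mem ht]
          exact le_self_add
        · rw [Set.indicator_of_mem (show 𝔭 ∈ S \ T from ⟨hs1, ht⟩)]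
          refine le_trans ?_ le_add_self
          have := nm_le_half 𝔭 hs.le
          exact ENNReal.ofReal_le_one.2 (by linarith)
      · rw [Set.indicator_of_notMem hs1]
        exact zero_le
    refine (ENNReal.tsum_le_tsum h3).trans ?_
    rw [ENNReal.tsum_add]
    gcongr
    rw [← tsum_subtype, ENNReal.tsum_const, mul_one, ENat.card_eq_coe_natCard,
      ENNReal.ofReal_natCast]
    rfl
  have hn : 0 < Module.finrank K L := Module.finrank_pos
  have hn' : 0 < Module.finrank K E := Module.finrank_pos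
  have h4 : ∀ᶠ s : ℝ in 𝓝[>] 1,
      (Module.finrank K E : ℝ) * Real.log (1 / (s - 1)) ≤
      (Module.finrank K L : ℝ) * Real.log (1 / (s - 1)) +
        ((Module.finrank K L : ℝ) * (C2 + Module.finrank K E * m) + Module.finrank K E * C1) := by
    filter_upwards [h1, h2, self_mem_nhdsWithin,
      tendsto_log_one_div.eventually_ge_atTop (|C1| + |C2|)] with s h1 h2 h5 h6
    have hs1 : (1 : ℝ) < s := h5
    have a1 := le_abs_self C1
    have a2 := neg_abs_le C2
    have a3 := abs_nonneg C1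
    have a4 := abs_nonneg C2
    have b1 : ENNReal.ofReal (Module.finrank K E * (Real.log (1 / (s - 1)) - C1)) ≤
        ENNReal.ofReal ((Module.finrank K L : ℝ) * (Real.log (1 / (s - 1)) + C2) +
          Module.finrank K L * (Module.finrank K E * m)) := by
      rw [ENNReal.ofReal_mul (by positivity), ENNReal.ofReal_natCast,
        ENNReal.ofReal_add (mul_nonneg (by positivity) (by linarith)) (by positivity),
        ENNReal.ofReal_mul (by positivity), ENNReal.ofReal_natCast,
        ENNReal.ofReal_mul (by positivity), ENNReal.ofReal_natCast,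
        ENNReal.ofReal_mul (by positivity), ENNReal.ofReal_natCast]
      calc (Module.finrank K E : ℝ≥0∞) * ENNReal.ofReal (Real.log (1 / (s - 1)) - C1)
          ≤ (Module.finrank K E : ℝ≥0∞) * ((Module.finrank K L : ℝ≥0∞) * splitSum K L s) := by
            gcongr
        _ ≤ (Module.finrank K E : ℝ≥0∞) * ((Module.finrank K L : ℝ≥0∞) *
            (splitSum K E s + ENNReal.ofReal m)) := by
            gcongr
            exact key s hs1
        _ = (Module.finrank K L : ℝ≥0∞) * ((Module.finrank K E : ℝ≥0∞) * splitSum K E s) +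
            (Module.finrank K L : ℝ≥0∞) * ((Module.finrank K E : ℝ≥0∞) * ENNReal.ofReal m) := by
            ring
        _ ≤ _ := by
            gcongr
    rw [ENNReal.ofReal_le_ofReal_iff (by
      have : 0 ≤ Real.log (1 / (s - 1)) + C2 := by linarith
      positivity)] at b1
    linarith
  exact_mod_cast of_log_le h4

end Vale.Agent.P022.H191
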