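import Vale.Agent.P022.H191.Cone
import Vale.Agent.P022.H905.Orb

/-! The cone decomposition for a real quadratic field. -/

namespace Vale.Agent.P022.H191

open NumberField Module Ideal
open Vale.Agent.P022.H436 (QD)
open Vale.Agent.P022.H905

section

variable {K : Type} [Field K] [NumberField K] (q : QD K) (σ : K →+* ℝ)

/-- the real embeddings are the two known ones -/
theorem emb_cases (τ : K →+* ℝ) (z : 𝓞 K) : τ (z : K) = s1 σ z ∨ τ (z : K) = s2 q σ z := by
  have e1 : ∀ z : 𝓞 K, s1 τ z = q.cx z + q.cy z * s1 τ q.w := by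
    intro z
    conv_lhs => rw [q.eq_c z]
    rw [map_add, map_mul, map_intCast, map_intCast]
  have e2 : s1 σ z = q.cx z + q.cy z * s1 σ q.w := by
    conv_lhs => rw [q.eq_c z]
    rw [map_add, map_mul, map_intCast, map_intCast]
  have e3 : s2 q σ z = q.cx z + q.cy z * s2 q σ q.w := by
    conv_lhs => rw [q.eq_c z]
    rw [map_add, map_mul, map_intCast, map_intCast]
  have h1 : (s1 τ q.w - s1 σ q.w) * (s1 τ q.w - s2 q σ q.w) = 0 := by
    have h2 : s1 τ q.w * s1 τ q.w = q.t * s1 τ q.w - q.n := by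
      have := congrArg (s1 τ) q.hw
      rw [map_mul, map_sub, map_mul, map_intCast, map_intCast] at this
      exact this
    have h3 : s1 σ q.w + s2 q σ q.w = q.t := by
      rw [s2_apply, s_w, map_sub, map_intCast]
      ring
    have h4 : s1 σ q.w * s2 q σ q.w = q.n := by
      rw [s2_apply, s_w, map_sub, map_intCast, mul_sub]
      have := congrArg (s1 σ) q.hw
      rw [map_mul, map_sub, map_mul, map_intCast, map_intCast] at this
      rw [this]
      ring
    linear_combination h2 - s1 τ q.w * h3 + h4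
  have h0 : τ (z : K) = s1 τ z := rfl
  rcases mul_eq_zero.1 h1 with h | h
  · left
    rw [h0, e1, e2, sub_eq_zero.1 h]
  · right
    rw [h0, e1, e3, sub_eq_zero.1 h]

/-- the second embedding on `K` -/
noncomputable def tau2 : K →+* ℝ := IsFractionRing.lift (s2_inj q σ)

theorem tau2_coe (z : 𝓞 K) : tau2 q σ (z : K) = s2 q σ z :=
  IsFractionRing.lift_algebraMap (s2_inj q σ) z

theorem totpos_iff (z : 𝓞 K) : (∀ τ : K →+* ℝ, 0 < τ z) ↔ 0 < s1 σ z ∧ 0 < s2 q σ z := by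
  constructor
  · intro h
    refine ⟨h σ, ?_⟩
    have := h (tau2 q σ)
    rwa [tau2_coe] at this
  · rintro ⟨h1, h2⟩ τ
    rcases emb_cases q σ τ z with h | h
    · rw [h]; exact h1
    · rw [h]; exact h2

/-- the group of totally positive units congruent to one -/
def UG (K : Type) [Field K] [NumberField K] (M : ℕ) : Subgroup (𝓞 K)ˣ where
  carrier := {u | UP M (u : 𝓞 K)}
  one_mem' := ⟨by simp, fun τ => by simp⟩
  mul_mem' := by
    rintro u v ⟨h1, h2⟩ ⟨h3, h4⟩
    refine ⟨?_, fun τ => ?_⟩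
    · have : ((u * v : (𝓞 K)ˣ) : 𝓞 K) - 1 = u * (v - 1) + (u - 1) := by push_cast; ring
      rw [this]
      exact Ideal.add_mem _ (Ideal.mul_mem_left _ _ h3) h1
    · have := mul_pos (h2 τ) (h4 τ)
      rw [← map_mul] at this
      exact this
  inv_mem' := by
    rintro u ⟨h1, h2⟩
    refine ⟨?_, fun τ => ?_⟩
    · have h5 : ((u⁻¹ : (𝓞 K)ˣ) : 𝓞 K) * (u : 𝓞 K) = 1 := Units.inv_mul u
      have h6 : ((u⁻¹ : (𝓞 K)ˣ) : 𝓞 K) - 1 = -(((u⁻¹ : (𝓞 K)ˣ) : 𝓞 K) * (u - 1)) := by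
        rw [mul_sub, h5, mul_one]
        ring
      rw [h6]
      exact Submodule.neg_mem _ (Ideal.mul_mem_left _ _ h1)
    · have h5 : ((u⁻¹ : (𝓞 K)ˣ) : 𝓞 K) * (u : 𝓞 K) = 1 := Units.inv_mul u
      have h6 : τ ((((u⁻¹ : (𝓞 K)ˣ) : 𝓞 K) : K)) * τ ((u : 𝓞 K) : K) = 1 := by
        rw [← map_mul]
        have : ((((u⁻¹ : (𝓞 K)ˣ) : 𝓞 K) : K)) * ((u : 𝓞 K) : K) =
            ((((u⁻¹ : (𝓞 K)ˣ) : 𝓞 K) * (u : 𝓞 K) : 𝓞 K) : K) := by push_cast; rfl
        rw [this, h5]
        simp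
      exact (pos_iff_pos_of_mul_pos (by rw [h6]; exact one_pos)).2 (h2 τ)

/-- the square of the first conjugate -/
noncomputable def rh (M : ℕ) : UG K M →* ℝ where
  toFun u := s1 σ (u : (𝓞 K)ˣ) ^ 2
  map_one' := by simp
  map_mul' a b := by
    push_cast
    rw [map_mul, mul_pow]

theorem rh_apply (M : ℕ) (u : UG K M) : rh σ M u = s1 σ ((u : (𝓞 K)ˣ) : 𝓞 K) ^ 2 := rfl

theorem rh_pos (M : ℕ) (u : UG K M) : 0 < rh σ M u := by
  rw [rh_apply]
  have := u.2.2 σ
  exact pow_pos this 2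

theorem s1_mul_s2_UG (M : ℕ) (u : UG K M) :
    s1 σ ((u : (𝓞 K)ˣ) : 𝓞 K) * s2 q σ ((u : (𝓞 K)ˣ) : 𝓞 K) = 1 := by
  have h1 := (totpos_iff q σ ((u : (𝓞 K)ˣ) : 𝓞 K)).1 u.2.2
  have h2 := s1_mul_s2 q σ ((u : (𝓞 K)ˣ) : 𝓞 K)
  have h3 : IsUnit (Algebra.norm ℤ ((u : (𝓞 K)ˣ) : 𝓞 K)) := (Units.isUnit _).map (Algebra.norm ℤ)
  rcases Int.isUnit_iff.1 h3 with h4 | h4
  · rw [h2, h4]
    simp
  · have := mul_pos h1.1 h1.2
    rw [h2, h4] at this
    norm_num at this

/-- case `K` real quadratic -/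
theorem cone_real (h2 : finrank ℚ K = 2) (σ : K →+* ℝ) {M : ℕ} (hM : 0 < M) :
    Nonempty (ConeSys K M) := by
  classical
  obtain ⟨q⟩ := H436.exists_QD h2
  obtain ⟨e, z, he, hE1, hez⟩ := H905.exists_unit q σ (M := (M : ℤ)) (by exact_mod_cast hM.ne')
  set E : ℝ := s1 σ e with hE
  have hE0 : 0 < E := by linarith
  have hs2 : s2 q σ e = E⁻¹ := by
    have h3 : s1 σ e * s2 q σ e = 1 := by
      rw [s2_apply, ← map_mul, he, map_one]
    rw [← hE] at h3
    exact (eq_inv_of_mul_eq_one_right h3)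
  have hs2pos : 0 < s2 q σ e := by rw [hs2]; positivity
  have hs2lt : s2 q σ e < 1 := by rw [hs2]; exact inv_lt_one_of_one_lt₀ hE1
  have htp : ∀ τ : K →+* ℝ, 0 < τ e := (totpos_iff q σ e).2 ⟨hE0, hs2pos⟩
  -- the basis
  have hli : LinearIndependent ℚ ![(1 : K), (e : K)] := by
    rw [LinearIndependent.pair_iff]
    intro s t hst
    have h3 : (s : ℝ) + t * E = 0 := by
      have := congrArg σ hst
      rw [map_add, Rat.smul_def, Rat.smul_def, map_mul, map_mul, map_ratCast, map_ratCast, map_one,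
        mul_one, map_zero] at this
      exact this
    have h4 : (s : ℝ) + t * s2 q σ e = 0 := by
      have := congrArg (tau2 q σ) hst
      rw [map_add, Rat.smul_def, Rat.smul_def, map_mul, map_mul, map_ratCast, map_ratCast, map_one,
        mul_one, map_zero, tau2_coe] at this
      exact this
    have h5 : (t : ℝ) * (E - s2 q σ e) = 0 := by linarith
    have h6 : E - s2 q σ e ≠ 0 := by
      have : 0 < E - s2 q σ e := by linarith
      exact this.ne'
    have h7 : (t : ℝ) = 0 := (mul_eq_zero.1 h5).resolve_right h6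
    have h8 : (s : ℝ) = 0 := by rw [h7, zero_mul, add_zero] at h3; exact h3
    exact ⟨by exact_mod_cast h8, by exact_mod_cast h7⟩
  set b : Basis (Fin 2) ℚ K := basisOfLinearIndependentOfCardEqFinrank hli (by rw [h2]; rfl)
    with hb
  have hb0 : b 0 = 1 := by
    rw [hb, coe_basisOfLinearIndependentOfCardEqFinrank]
    rfl
  have hb1 : b 1 = e := by
    rw [hb, coe_basisOfLinearIndependentOfCardEqFinrank]
    rfl
  have hrep : ∀ x : K, x = algebraMap ℚ K (b.repr x 0) + algebraMap ℚ K (b.repr x 1) * e := by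
    intro x
    have := b.sum_repr x
    rw [Fin.sum_univ_two, hb0, hb1, Algebra.smul_def, Algebra.smul_def, mul_one] at this
    exact this.symm
  have hco : ∀ x : 𝓞 K, s1 σ x = b.repr (x : K) 0 + b.repr (x : K) 1 * E ∧
      s2 q σ x = b.repr (x : K) 0 + b.repr (x : K) 1 * s2 q σ e := by
    intro x
    constructor
    · have := congrArg σ (hrep (x : K))
      rw [map_add, map_mul] at this
      rw [hE, s1_apply, s1_apply]
      simpa using this
    · have := congrArg (tau2 q σ) (hrep (x : K))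
      rw [map_add, map_mul, tau2_coe, tau2_coe] at this
      simpa using this
  -- the cone
  have hcone : ∀ x : 𝓞 K, InCone b (x : K) ↔ s2 q σ x ≤ s1 σ x ∧ s1 σ x < E ^ 2 * s2 q σ x := by
    intro x
    obtain ⟨c1, c2⟩ := hco x
    have hd : 0 < E - s2 q σ e := by linarith
    have c3 : s1 σ x - s2 q σ x = b.repr (x : K) 1 * (E - s2 q σ e) := by rw [c1, c2]; ring
    have c4 : E ^ 2 * s2 q σ x - s1 σ x = b.repr (x : K) 0 * (E ^ 2 - 1) := by
      rw [c1, c2, hs2]
      field_simp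
      ring
    have hd2 : 0 < E ^ 2 - 1 := by nlinarith
    unfold InCone
    rw [Fin.forall_fin_two]
    constructor
    · rintro ⟨h3, h4, h5⟩
      have h3' : (0 : ℝ) < (b.repr (x : K) 0 : ℝ) := by exact_mod_cast h3
      have h5' : (0 : ℝ) ≤ (b.repr (x : K) 1 : ℝ) := by exact_mod_cast h5
      have := mul_pos h3' hd2
      have := mul_nonneg h5' hd.le
      constructor <;> linarith
    · rintro ⟨h3, h4⟩
      have h5 : (0 : ℝ) < (b.repr (x : K) 0 : ℝ) :=
        (pos_iff_pos_of_mul_pos (by rw [← c4]; linarith)).2 hd2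
      have h6 : (0 : ℝ) ≤ (b.repr (x : K) 1 : ℝ) := by
        by_contra hcon
        push Not at hcon
        nlinarith
      have h5' : 0 < b.repr (x : K) 0 := by exact_mod_cast h5
      have h6' : 0 ≤ b.repr (x : K) 1 := by exact_mod_cast h6
      exact ⟨h5', h5'.le, h6'⟩
  -- the norm form
  have hlin : ∀ a c : ℚ, b.repr (a • b 0 + c • b 1) 0 = a ∧ b.repr (a • b 0 + c • b 1) 1 = c := by
    intro a c
    rw [map_add, map_smul, map_smul, b.repr_self, b.repr_self]
    constructor <;> simp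
  obtain ⟨T, hT0, hT⟩ : ∃ T : ℚ, 0 < T ∧ (e : K) * e = (-1 : ℚ) • b 0 + T • b 1 := by
    have h3 := hco (e * e)
    rw [map_mul, map_mul, ← hE, hs2] at h3
    have hEE : E ≠ 0 := hE0.ne'
    have h4 : E - E⁻¹ ≠ 0 := by
      rw [← hs2]
      have : 0 < E - s2 q σ e := by linarith
      exact this.ne'
    have h5 : (b.repr ((e * e : 𝓞 K) : K) 1 : ℝ) = E + E⁻¹ := by
      have h6 : (b.repr ((e * e : 𝓞 K) : K) 1 : ℝ) * (E - E⁻¹) = (E + E⁻¹) * (E - E⁻¹) := by
        linear_combination h3.2 - h3.1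
      exact mul_right_cancel₀ h4 h6
    have h7 : (b.repr ((e * e : 𝓞 K) : K) 0 : ℝ) = -1 := by
      have h8 := h3.1
      rw [h5, add_mul, inv_mul_cancel₀ hEE] at h8
      linarith
    have h9 : b.repr ((e * e : 𝓞 K) : K) 0 = -1 := by exact_mod_cast h7
    refine ⟨b.repr ((e * e : 𝓞 K) : K) 1, ?_, ?_⟩
    · have : (0 : ℝ) < (b.repr ((e * e : 𝓞 K) : K) 1 : ℝ) := by
        rw [h5]
        positivity
      exact_mod_cast this
    · rw [← h9]
      have := b.sum_repr ((e * e : 𝓞 K) : K)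
      rw [Fin.sum_univ_two] at this
      rw [this]
      push_cast
      rfl
  have hnorm : ∀ x : K, Algebra.norm ℚ x = b.repr x 0 ^ 2 + T * (b.repr x 0 * b.repr x 1) +
      b.repr x 1 ^ 2 := by
    intro x
    have h3 : x * b 1 = (-(b.repr x 1)) • b 0 + (b.repr x 0 + T * b.repr x 1) • b 1 := by
      have h4 : x = b.repr x 0 • b 0 + b.repr x 1 • b 1 := by
        have := b.sum_repr x
        rw [Fin.sum_univ_two] at this
        exact this.symm
      have h5 : b 1 * b 1 = (-1 : ℚ) • b 0 + T • b 1 := by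
        have h7 := hT
        rw [← hb1] at h7
        exact h7
      have h6 : b 0 * b 1 = b 1 := by rw [hb0, one_mul]
      conv_lhs => rw [h4]
      rw [add_mul, smul_mul_assoc, smul_mul_assoc, h6, h5]
      module
    rw [Algebra.norm_eq_matrix_det b, Matrix.det_fin_two, Algebra.leftMulMatrix_eq_repr_mul,
      Algebra.leftMulMatrix_eq_repr_mul, Algebra.leftMulMatrix_eq_repr_mul,
      Algebra.leftMulMatrix_eq_repr_mul, h3, (hlin _ _).1, (hlin _ _).2, hb0, mul_one]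
    ring
  -- counting
  have heU : UP M e := by
    refine ⟨?_, htp⟩
    rw [hez, add_sub_cancel_left]
    exact Ideal.mul_mem_right _ _ (Ideal.mem_span_singleton_self _)
  set ε : UG K M := ⟨⟨e, q.s e, he, by rw [mul_comm]; exact he⟩, heU⟩ with hε
  have hrE : rh σ M ε = E ^ 2 := rfl
  have hrE1 : 1 < rh σ M ε := by rw [hrE]; nlinarith
  have hfin1 : {u : UG K M | 1 ≤ rh σ M u ∧ rh σ M u < rh σ M ε}.Finite := by
    have h1 := finite_bdd q σ E 1
    have h2 : Function.Injective (fun u : UG K M => ((u : (𝓞 K)ˣ) : 𝓞 K)) := by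
      intro u v huv
      exact Subtype.ext (Units.ext huv)
    refine (h1.preimage h2.injOn).subset ?_
    rintro u ⟨hu1, hu2⟩
    have h3 := s1_mul_s2_UG q σ M u
    obtain ⟨p1, p2⟩ := (totpos_iff q σ ((u : (𝓞 K)ˣ) : 𝓞 K)).1 u.2.2
    rw [hrE, rh_apply] at hu2
    rw [rh_apply] at hu1
    have h4 : s1 σ ((u : (𝓞 K)ˣ) : 𝓞 K) ≤ E := (abs_lt_of_sq_lt_sq' hu2 hE0.le).2.le
    have h5 : 1 ≤ s1 σ ((u : (𝓞 K)ˣ) : 𝓞 K) := by nlinarith
    refine ⟨?_, ?_⟩
    · change |s1 σ ((u : (𝓞 K)ˣ) : 𝓞 K)| ≤ E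
      rw [abs_of_pos p1]
      exact h4
    · change |s2 q σ ((u : (𝓞 K)ˣ) : 𝓞 K)| ≤ 1
      rw [abs_of_pos p2]
      nlinarith
  set w : ℕ := {u : UG K M | 1 ≤ rh σ M u ∧ rh σ M u < rh σ M ε}.ncard with hw
  have hw0 : 0 < w := by
    rw [hw, Set.ncard_pos hfin1]
    exact ⟨1, by simp only [Set.mem_ofPred_eq, map_one]; exact ⟨le_rfl, hrE1⟩⟩
  refine ⟨{ n := 1, κ := Unit, fin := inferInstance, v := fun _ => ![1, e], b := fun _ => b,
            hb := ?_, pos := ?_, mono := ?_, w := w, w_pos := hw0, count := ?_ }⟩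
  · intro _ j
    fin_cases j
    · simp [hb0]
    · simp [hb1]
  · intro _ τ
    refine ⟨by simp, fun j => ?_⟩
    fin_cases j
    · simp
    · simpa using (htp τ).le
  · intro _ x y hx hxy
    have x0 := hx 0
    have x1 := hx 1
    have y0 := hxy 0
    have y1 := hxy 1
    have hnx : 0 ≤ Algebra.norm ℚ x := by rw [hnorm]; positivity
    have z0 : 0 ≤ b.repr y 0 := x0.trans y0
    have z1 : 0 ≤ b.repr y 1 := x1.trans y1
    have hnn : Algebra.norm ℚ x ≤ Algebra.norm ℚ y := by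
      rw [hnorm, hnorm]
      gcongr
    rw [abs_of_nonneg hnx, abs_of_nonneg (hnx.trans hnn)]
    exact hnn
  · intro α hα hpos
    obtain ⟨a1, a2⟩ := (totpos_iff q σ α).1 hpos
    have hr : 0 < s1 σ α / s2 q σ α := div_pos a1 a2
    have hn := ncard_eq (rh σ M) (rh_pos σ M) ε hrE1 hr
    have hiff : ∀ u : UG K M, InCone b ((((u : (𝓞 K)ˣ) : 𝓞 K) * α : 𝓞 K) : K) ↔
        1 ≤ s1 σ α / s2 q σ α * rh σ M u ∧ s1 σ α / s2 q σ α * rh σ M u < rh σ M ε := by
      intro u
      obtain ⟨p1, p2⟩ := (totpos_iff q σ ((u : (𝓞 K)ˣ) : 𝓞 K)).1 u.2.2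
      have h3 := s1_mul_s2_UG q σ M u
      have h5 : s2 q σ ((u : (𝓞 K)ˣ) : 𝓞 K) = (s1 σ ((u : (𝓞 K)ˣ) : 𝓞 K))⁻¹ :=
        eq_inv_of_mul_eq_one_right h3
      rw [hcone, map_mul, map_mul, h5, hrE, rh_apply]
      set a := s1 σ ((u : (𝓞 K)ˣ) : 𝓞 K)
      set c := s1 σ α
      set d := s2 q σ α
      constructor
      · rintro ⟨p3, p4⟩
        rw [inv_mul_eq_div, div_le_iff₀ p1] at p3
        rw [inv_mul_eq_div, mul_div_assoc', lt_div_iff₀ p1] at p4
        constructor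
        · rw [div_mul_eq_mul_div, one_le_div a2]; nlinarith
        · rw [div_mul_eq_mul_div, div_lt_iff₀ a2]; nlinarith
      · rintro ⟨p3, p4⟩
        rw [div_mul_eq_mul_div, one_le_div a2] at p3
        rw [div_mul_eq_mul_div, div_lt_iff₀ a2] at p4
        rw [inv_mul_eq_div, div_le_iff₀ p1, mul_div_assoc', lt_div_iff₀ p1]
        constructor <;> nlinarith
    have hequiv : {p : Unit × (𝓞 K)ˣ // UP M (p.2 : 𝓞 K) ∧
        InCone b (((p.2 : 𝓞 K) * α : 𝓞 K) : K)} ≃
        {g : UG K M | 1 ≤ s1 σ α / s2 q σ α * rh σ M g ∧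
          s1 σ α / s2 q σ α * rh σ M g < rh σ M ε} :=
      { toFun := fun p => ⟨⟨p.1.2, p.2.1⟩, (hiff ⟨p.1.2, p.2.1⟩).1 p.2.2⟩
        invFun := fun g => ⟨((), (g.1 : (𝓞 K)ˣ)), g.1.2, (hiff g.1).2 g.2⟩
        left_inv := fun _ => rfl
        right_inv := fun _ => rfl }
    have hfin2 : {g : UG K M | 1 ≤ s1 σ α / s2 q σ α * rh σ M g ∧
          s1 σ α / s2 q σ α * rh σ M g < rh σ M ε}.Finite := by
      refine Set.finite_of_ncard_pos ?_
      rw [hn]
      exact hw0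
    rw [ENat.card_congr hequiv]
    have := hfin2.to_subtype
    rw [ENat.card_eq_coe_natCard, Nat.card_coe_set_eq, hn]

end

end Vale.Agent.P022.H191
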