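import Vale.Agent.P022.H191.Comp
import Vale.Agent.P022.H191.Real
import Vale.Agent.P022.H23.Cone
import Vale.Agent.P022.H436.BlockA

/-! The second inequality: final assembly. -/

namespace Vale.Agent.P022.H191

open NumberField

theorem cones : Cone_statement := by
  intro K _ _ h M hM
  have h0 : 0 < Module.finrank ℚ K := Module.finrank_pos
  rcases (by omega : Module.finrank ℚ K = 1 ∨ Module.finrank ℚ K = 2) with h1 | h2
  · exact H23.cone_one h1 M
  · by_cases hr : Nonempty (K →+* ℝ)
    · obtain ⟨σ⟩ := hr
      exact cone_real h2 σ hM
    · exact H23.cone_imag h2 (not_nonempty_iff.1 hr) M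

/-- **Second inequality** of class field theory over a field of degree at most two. -/
theorem second_ineq : Second_statement := second_of_blocks H436.blockA blockB cones

end Vale.Agent.P022.H191
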