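import Vale.Agent.P022.H191.Squeeze

/-! Comparison of the partial zeta functions: block B. -/

namespace Vale.Agent.P022.H191

open NumberField Ideal IsDedekindDomain Filter Topology
open scoped ENNReal
open Vale.Agent.P001.H200.Ded

section

variable {K : Type} [Field K] [NumberField K]

/-- the additive group `𝔟 ∩ (M)` -/
def GG (M : ℕ) (𝔟 : Ideal (𝓞 K)) : AddSubgroup (𝓞 K) := Submodule.toAddSubgroup (𝔟 ⊓ idl K M)

theorem mem_GG {M : ℕ} {𝔟 : Ideal (𝓞 K)} {x : 𝓞 K} : x ∈ GG M 𝔟 ↔ x ∈ 𝔟 ∧ x ∈ idl K M := by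
  unfold GG
  rw [Submodule.mem_toAddSubgroup, Submodule.mem_inf]

theorem index_GG {M : ℕ} {𝔟 : Ideal (𝓞 K)} (hc : IsCoprime 𝔟 (idl K M)) :
    (GG M 𝔟).index = absNorm 𝔟 * absNorm (idl K M) := by
  rw [← map_mul, Ideal.mul_eq_inf_of_isCoprime hc, absNorm_apply]
  rfl

theorem exists_x0 {M : ℕ} {𝔟 : Ideal (𝓞 K)} (hc : IsCoprime 𝔟 (idl K M)) :
    ∃ x0 : 𝓞 K, ∀ α : 𝓞 K, A0 M 𝔟 α ↔ α - x0 ∈ GG M 𝔟 := by
  rw [Ideal.isCoprime_iff_exists] at hc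
  obtain ⟨x0, hx0, y, hy, hxy⟩ := hc
  have h1 : x0 - 1 ∈ idl K M := by
    have : x0 - 1 = -y := by rw [← hxy]; ring
    rw [this]
    exact Submodule.neg_mem _ hy
  refine ⟨x0, fun α => ?_⟩
  rw [mem_GG]
  unfold A0
  constructor
  · rintro ⟨h2, h3⟩
    refine ⟨Ideal.sub_mem _ h2 hx0, ?_⟩
    have : α - x0 = (α - 1) - (x0 - 1) := by ring
    rw [this]
    exact Ideal.sub_mem _ h3 h1
  · rintro ⟨h2, h3⟩
    refine ⟨?_, ?_⟩
    · have : α = (α - x0) + x0 := by ring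
      rw [this]
      exact Ideal.add_mem _ h2 hx0
    · have : α - 1 = (α - x0) + (x0 - 1) := by ring
      rw [this]
      exact Ideal.add_mem _ h3 h1

/-- the sum over all cones -/
theorem tsum_TT {M : ℕ} (S : ConeSys K M) {𝔟 : Ideal (𝓞 K)} {x0 : 𝓞 K}
    (hx0 : ∀ α : 𝓞 K, A0 M 𝔟 α ↔ α - x0 ∈ GG M 𝔟) (f : 𝓞 K → ℝ≥0∞) :
    ∑' p : TT S 𝔟, f p.1.2 = ∑' k : S.κ, ∑' α : Cb (S.b k) (GG M 𝔟) x0, f α := by
  rw [← ENNReal.tsum_sigma (fun k (α : Cb (S.b k) (GG M 𝔟) x0) => f α)]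
  let e : (Σ k, Cb (S.b k) (GG M 𝔟) x0) ≃ TT S 𝔟 :=
    { toFun := fun p => ⟨(p.1, p.2.1), p.2.2.2, (hx0 _).2 p.2.2.1⟩
      invFun := fun p => ⟨p.1.1, p.1.2, (hx0 _).1 p.2.2, p.2.1⟩
      left_inv := fun _ => rfl
      right_inv := fun _ => rfl }
  rw [← e.tsum_eq]
  rfl

/-- multiples of `m` in `𝔟 ∩ (M)` -/
theorem Hm_le {M : ℕ} {𝔟 : Ideal (𝓞 K)} {n : ℕ} (v : Fin (n + 1) → 𝓞 K) {m : ℕ}
    (h1 : (m : 𝓞 K) ∈ 𝔟) (h2 : (m : 𝓞 K) ∈ idl K M) : Hm v m ≤ GG M 𝔟 := by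
  rintro _ ⟨i, rfl⟩
  rw [mem_GG]
  exact ⟨Ideal.mul_mem_right _ _ h1, Ideal.mul_mem_right _ _ h2⟩

/-- the sum over the residues, lower and upper bound -/
theorem bounds {M : ℕ} (S : ConeSys K M) {𝔟 : Ideal (𝓞 K)}
    (hc : IsCoprime 𝔟 (idl K M)) (hn : S.n ≤ 1) {m : ℕ} (hm : 0 < m)
    (h1 : (m : 𝓞 K) ∈ 𝔟) (h2 : (m : 𝓞 K) ∈ idl K M) :
    ∃ C : ℝ, ∀ s : ℝ, 1 ≤ s →
      ∑' k : S.κ, ((Hm (S.v k) m).index : ℝ≥0∞) *
        (ENNReal.ofReal (((m : ℝ) ^ (S.n + 1)) ^ (-s)) * Wf (S.v k) s) ≤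
      ((absNorm 𝔟 * absNorm (idl K M) : ℕ) : ℝ≥0∞) *
        ∑' p : TT S 𝔟, ENNReal.ofReal (nrm (p.1.2 : K) ^ (-s)) ∧
      ((absNorm 𝔟 * absNorm (idl K M) : ℕ) : ℝ≥0∞) *
        ∑' p : TT S 𝔟, ENNReal.ofReal (nrm (p.1.2 : K) ^ (-s)) ≤
      ∑' k : S.κ, ((Hm (S.v k) m).index : ℝ≥0∞) *
        (ENNReal.ofReal (((m : ℝ) ^ (S.n + 1)) ^ (-s)) * Wf (S.v k) s) + ENNReal.ofReal C := by
  classical
  have := S.fin
  obtain ⟨x0, hx0⟩ := exists_x0 hc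
  choose C hC using fun k => Bf_le (S.b k) (S.v k) (S.hb k) hn
  have hHG : ∀ k, Hm (S.v k) m ≤ GG M 𝔟 := fun k => Hm_le (S.v k) h1 h2
  have hidx : ∀ k, (Hm (S.v k) m).index =
      Nat.card (Rb (S.b k) m (GG M 𝔟) x0) * (absNorm 𝔟 * absNorm (idl K M)) := by
    intro k
    rw [card_Rb (S.b k) (S.v k) (S.hb k) hm (GG M 𝔟) (hHG k) x0, ← index_GG hc,
      AddSubgroup.relIndex_mul_index (hHG k)]
  have hfin : ∀ k, Finite (Rb (S.b k) m (GG M 𝔟) x0) := fun k =>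
    ((finite_box (S.b k) m).subset fun α hα => hα.2).to_subtype
  have hmono : ∀ k, Mono (S.b k) := fun k => S.mono k
  have hT : ∀ s : ℝ, ∑' p : TT S 𝔟, ENNReal.ofReal (nrm (p.1.2 : K) ^ (-s)) =
      ∑' k : S.κ, ∑' r : Rb (S.b k) m (GG M 𝔟) x0, Ff (S.v k) m s r := by
    intro s
    rw [tsum_TT S hx0 (fun α => ENNReal.ofReal (nrm (α : K) ^ (-s)))]
    refine tsum_congr fun k => ?_
    exact tsum_cone (S.b k) (S.v k) (S.hb k) hm (GG M 𝔟) (fun i => hHG k ⟨i, rfl⟩) x0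
      (fun α => ENNReal.ofReal (nrm (α : K) ^ (-s)))
  have hconst : ∀ (k : S.κ) (c : ℝ≥0∞), ∑' _ : Rb (S.b k) m (GG M 𝔟) x0, c =
      (Nat.card (Rb (S.b k) m (GG M 𝔟) x0) : ℝ≥0∞) * c := by
    intro k c
    have := hfin k
    rw [ENNReal.tsum_const, ENat.card_eq_coe_natCard]
    rfl
  refine ⟨∑ k, (Hm (S.v k) m).index * (1 + |C k|), fun s hs => ⟨?_, ?_⟩⟩
  · rw [hT, ← ENNReal.tsum_mul_left]
    refine ENNReal.tsum_le_tsum fun k => ?_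
    rw [hidx, Nat.cast_mul, mul_comm (Nat.card _ : ℝ≥0∞), mul_assoc, ← hconst]
    gcongr with r
    exact Ff_lower (S.b k) (S.v k) (S.hb k) (hmono k) (by linarith) r.2.2
  · rw [hT, ← ENNReal.tsum_mul_left, ENNReal.ofReal_sum_of_nonneg (fun k _ => by positivity),
      tsum_fintype, tsum_fintype, ← Finset.sum_add_distrib]
    refine Finset.sum_le_sum fun k _ => ?_
    have h3 : ∑' r : Rb (S.b k) m (GG M 𝔟) x0, Ff (S.v k) m s r ≤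
        (Nat.card (Rb (S.b k) m (GG M 𝔟) x0) : ℝ≥0∞) *
        (ENNReal.ofReal (((m : ℝ) ^ (S.n + 1)) ^ (-s)) * Wf (S.v k) s +
          ENNReal.ofReal (1 + |C k|)) := by
      rw [← hconst]
      refine ENNReal.tsum_le_tsum fun r => ?_
      refine (Ff_upper (S.b k) (S.v k) (S.hb k) (hmono k) hm (by linarith) r.2.2).trans ?_
      gcongr
      rw [ENNReal.ofReal_add zero_le_one (abs_nonneg _), ENNReal.ofReal_one]
      gcongr
      exact (hC k s hs).trans (ENNReal.ofReal_le_ofReal (le_abs_self _))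
    refine (mul_le_mul_right h3 _).trans (le_of_eq ?_)
    rw [hidx k, ENNReal.ofReal_mul (by positivity), ENNReal.ofReal_natCast]
    push_cast
    ring

theorem Zb_le (M : ℕ) (𝔟 : Ideal (𝓞 K)) (s : ℝ) : Zb M 𝔟 s ≤ zetaE K s :=
  ENNReal.tsum_comp_le_tsum_of_injective Subtype.val_injective
    (fun I : Ideal (𝓞 K) => ENNReal.ofReal ((absNorm I : ℝ) ^ (-s)))

theorem rpow_sub_one_le {A s : ℝ} (hA : 1 ≤ A) (h1 : 1 ≤ s) (h2 : s ≤ 2) :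
    A ^ (s - 1) ≤ 1 + (s - 1) * A := by
  have h := rpow_one_add_le_one_add_mul_self (s := A - 1) (p := s - 1) (by linarith)
    (by linarith) (by linarith)
  rw [add_sub_cancel] at h
  nlinarith

end

theorem blockB : BlockB := by
  intro K _ _ hdeg M hM S 𝔟 𝔟' hb hb' hc hc'
  classical
  have := S.fin
  have hn : S.n ≤ 1 := by
    have hk : Nonempty S.κ := by
      have h := S.count 1 one_ne_zero (fun σ => by simp)
      by_contra hcon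
      have hemp : IsEmpty S.κ := not_nonempty_iff.1 hcon
      have h0 : ENat.card {p : S.κ × (𝓞 K)ˣ // UP M (p.2 : 𝓞 K) ∧
          InCone (S.b p.1) (((p.2 : 𝓞 K) * 1 : 𝓞 K) : K)} = 0 := by
        rw [ENat.card_eq_zero_iff_empty]
        exact ⟨fun p => hemp.elim p.1.1⟩
      rw [h0] at h
      have := S.w_pos
      have h' : ((0 : ℕ) : ℕ∞) = S.w := by exact_mod_cast h
      have h'' : 0 = S.w := by exact_mod_cast h'
      omega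
    obtain ⟨k⟩ := hk
    have h := Module.finrank_eq_card_basis (S.b k)
    rw [Fintype.card_fin] at h
    omega
  have hA0 : ∀ {𝔠 : Ideal (𝓞 K)}, 𝔠 ≠ ⊥ → 0 < absNorm 𝔠 := fun {𝔠} h =>
    Nat.pos_of_ne_zero (by rwa [Ne, absNorm_eq_zero_iff])
  obtain ⟨A, hA⟩ : ∃ A, A = absNorm 𝔟 := ⟨_, rfl⟩
  obtain ⟨A', hA'⟩ : ∃ A', A' = absNorm 𝔟' := ⟨_, rfl⟩
  obtain ⟨D, hD⟩ : ∃ D, D = absNorm (idl K M) := ⟨_, rfl⟩
  have hApos : 0 < A := hA ▸ hA0 hb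
  have hApos' : 0 < A' := hA' ▸ hA0 hb'
  have hDpos : 0 < D := hD ▸ hA0 (idl_ne_bot hM)
  -- the common multiple
  obtain ⟨m, hm⟩ : ∃ m, m = A * A' * M := ⟨_, rfl⟩
  have hm0 : 0 < m := by rw [hm]; positivity
  have hmb : (m : 𝓞 K) ∈ 𝔟 := by
    rw [hm, hA]
    push_cast
    exact Ideal.mul_mem_right _ _ (Ideal.mul_mem_right _ _ (Ideal.absNorm_mem 𝔟))
  have hmb' : (m : 𝓞 K) ∈ 𝔟' := by
    rw [hm, hA']
    push_cast
    exact Ideal.mul_mem_right _ _ (Ideal.mul_mem_left _ _ (Ideal.absNorm_mem 𝔟'))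
  have hmM : (m : 𝓞 K) ∈ idl K M := by
    rw [hm]
    push_cast
    apply Ideal.mul_mem_left
    have : (M : 𝓞 K) = ((M : ℤ) : 𝓞 K) := by push_cast; rfl
    rw [this]
    exact Ideal.mem_span_singleton_self _
  obtain ⟨C, hC⟩ := bounds S hc hn hm0 hmb hmM
  obtain ⟨C', hC'⟩ := bounds S hc' hn hm0 hmb' hmM
  obtain ⟨X, hX⟩ : ∃ X : ℝ → ℝ≥0∞, X = fun s => ∑' k : S.κ, ((Hm (S.v k) m).index : ℝ≥0∞) *
        (ENNReal.ofReal (((m : ℝ) ^ (S.n + 1)) ^ (-s)) * Wf (S.v k) s) := ⟨_, rfl⟩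
  have hX' : ∀ s, ∑' k : S.κ, ((Hm (S.v k) m).index : ℝ≥0∞) *
        (ENNReal.ofReal (((m : ℝ) ^ (S.n + 1)) ^ (-s)) * Wf (S.v k) s) = X s := fun s => by rw [hX]
  simp_rw [hX'] at hC hC'
  -- rewriting in terms of the partial zeta functions
  have hAR : (1 : ℝ) ≤ A := by exact_mod_cast hApos
  have hAR' : (1 : ℝ) ≤ A' := by exact_mod_cast hApos'
  obtain ⟨W, hW⟩ : ∃ W : ℝ≥0∞, W = (D : ℝ≥0∞) * (S.w : ℝ≥0∞) := ⟨_, rfl⟩
  have hW1 : 1 ≤ W := by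
    rw [hW]
    have h1 : (1 : ℝ≥0∞) ≤ D := by exact_mod_cast hDpos
    have h2 : (1 : ℝ≥0∞) ≤ S.w := by exact_mod_cast S.w_pos
    exact one_le_mul h1 h2
  have hWtop : W ≠ ∞ := by
    rw [hW]
    exact ENNReal.mul_ne_top (ENNReal.natCast_ne_top _) (ENNReal.natCast_ne_top _)
  have hconv : ∀ (B : ℕ) (hB : (1 : ℝ) ≤ B) (𝔠 : Ideal (𝓞 K)) (h𝔠 : 𝔠 ≠ ⊥) (hB' : B = absNorm 𝔠)
      (s : ℝ), ((absNorm 𝔠 * absNorm (idl K M) : ℕ) : ℝ≥0∞) *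
        ∑' p : TT S 𝔠, ENNReal.ofReal (nrm (p.1.2 : K) ^ (-s)) =
        W * (ENNReal.ofReal ((B : ℝ) ^ (1 - s)) * Zb M 𝔠 s) := by
    intro B hB 𝔠 h𝔠 hB' s
    rw [unfold_sum S h𝔠, ← hD, ← hB', hW]
    have h1 : ENNReal.ofReal ((B : ℝ) ^ (1 - s)) =
        (B : ℝ≥0∞) * ENNReal.ofReal ((B : ℝ) ^ (-s)) := by
      rw [← ENNReal.ofReal_natCast, ← ENNReal.ofReal_mul (by positivity), sub_eq_add_neg,
        Real.rpow_add (by linarith), Real.rpow_one]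
    rw [h1]
    push_cast
    ring
  -- the pole of the zeta function
  have hz := (tendsto_zetaE K).eventually_lt_const
    (show dedekindZeta_residue K < dedekindZeta_residue K + 1 by linarith)
  obtain ⟨R, hR⟩ : ∃ R : ℝ, R = dedekindZeta_residue K + 1 := ⟨_, rfl⟩
  rw [← hR] at hz
  refine ⟨(A : ℝ) * |R| + (A : ℝ) * |C|, ?_⟩
  have hlt2 : ∀ᶠ s : ℝ in 𝓝[>] 1, s < 2 := nhdsWithin_le_nhds (Iio_mem_nhds (by norm_num))
  filter_upwards [hz, eventually_ne_top K, self_mem_nhdsWithin, hlt2] with s k1 k2 k3 k4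
  have hs1 : (1 : ℝ) < s := k3
  have b1 := (hC s hs1.le).2
  have b2 := (hC' s hs1.le).1
  rw [hconv A hAR 𝔟 hb hA s] at b1
  rw [hconv A' hAR' 𝔟' hb' hA' s] at b2
  -- lower bound for the second zeta function
  have c1 : X s ≤ W * Zb M 𝔟' s := by
    refine b2.trans ?_
    gcongr
    apply mul_le_of_le_one_left zero_le
    apply ENNReal.ofReal_le_one.2
    exact Real.rpow_le_one_of_one_le_of_nonpos hAR' (by linarith)
  have c2 : ENNReal.ofReal ((A : ℝ) ^ (s - 1)) * ENNReal.ofReal ((A : ℝ) ^ (1 - s)) = 1 := by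
    rw [← ENNReal.ofReal_mul (by positivity), ← Real.rpow_add (by linarith)]
    simp
  have c3 : W * Zb M 𝔟 s ≤ W * (ENNReal.ofReal ((A : ℝ) ^ (s - 1)) *
      (Zb M 𝔟' s + ENNReal.ofReal |C|)) := by
    calc W * Zb M 𝔟 s = ENNReal.ofReal ((A : ℝ) ^ (s - 1)) *
          (W * (ENNReal.ofReal ((A : ℝ) ^ (1 - s)) * Zb M 𝔟 s)) := by
          rw [show ENNReal.ofReal ((A : ℝ) ^ (s - 1)) *
            (W * (ENNReal.ofReal ((A : ℝ) ^ (1 - s)) * Zb M 𝔟 s)) =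
            (ENNReal.ofReal ((A : ℝ) ^ (s - 1)) * ENNReal.ofReal ((A : ℝ) ^ (1 - s))) *
            (W * Zb M 𝔟 s) by ring, c2, one_mul]
      _ ≤ ENNReal.ofReal ((A : ℝ) ^ (s - 1)) * (X s + ENNReal.ofReal C) := by gcongr
      _ ≤ ENNReal.ofReal ((A : ℝ) ^ (s - 1)) * (W * Zb M 𝔟' s + W * ENNReal.ofReal |C|) := by
          gcongr
          calc ENNReal.ofReal C ≤ ENNReal.ofReal |C| :=
                ENNReal.ofReal_le_ofReal (le_abs_self C)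
            _ ≤ W * ENNReal.ofReal |C| := le_mul_of_one_le_left zero_le hW1
      _ = _ := by ring
  have c4 : Zb M 𝔟 s ≤ ENNReal.ofReal ((A : ℝ) ^ (s - 1)) *
      (Zb M 𝔟' s + ENNReal.ofReal |C|) :=
    (ENNReal.mul_le_mul_iff_right (by positivity) hWtop).1 c3
  have hsA : 0 ≤ (s - 1) * A := mul_nonneg (by linarith) (by linarith)
  have c5 : ENNReal.ofReal ((A : ℝ) ^ (s - 1)) ≤ 1 + ENNReal.ofReal ((s - 1) * A) := by
    rw [← ENNReal.ofReal_one, ← ENNReal.ofReal_add zero_le_one hsA]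
    exact ENNReal.ofReal_le_ofReal (rpow_sub_one_le hAR hs1.le k4.le)
  have c6 : ENNReal.ofReal ((A : ℝ) ^ (s - 1)) ≤ ENNReal.ofReal A := by
    apply ENNReal.ofReal_le_ofReal
    calc (A : ℝ) ^ (s - 1) ≤ (A : ℝ) ^ (1 : ℝ) :=
          Real.rpow_le_rpow_of_exponent_le hAR (by linarith)
      _ = A := Real.rpow_one _
  have c7 : ENNReal.ofReal ((s - 1) * A) * Zb M 𝔟' s ≤ ENNReal.ofReal ((A : ℝ) * |R|) := by
    refine (mul_le_mul_right (Zb_le M 𝔟' s) _).trans ?_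
    rw [← ENNReal.ofReal_toReal k2, ← ENNReal.ofReal_mul hsA]
    apply ENNReal.ofReal_le_ofReal
    calc (s - 1) * A * (zetaE K s).toReal = A * ((s - 1) * (zetaE K s).toReal) := by ring
      _ ≤ A * |R| := by
          apply mul_le_mul_of_nonneg_left _ (by linarith)
          exact k1.le.trans (le_abs_self R)
  calc Zb M 𝔟 s ≤ ENNReal.ofReal ((A : ℝ) ^ (s - 1)) * (Zb M 𝔟' s + ENNReal.ofReal |C|) := c4
    _ = ENNReal.ofReal ((A : ℝ) ^ (s - 1)) * Zb M 𝔟' s +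
        ENNReal.ofReal ((A : ℝ) ^ (s - 1)) * ENNReal.ofReal |C| := by ring
    _ ≤ (1 + ENNReal.ofReal ((s - 1) * A)) * Zb M 𝔟' s +
        ENNReal.ofReal A * ENNReal.ofReal |C| := by gcongr
    _ = Zb M 𝔟' s + (ENNReal.ofReal ((s - 1) * A) * Zb M 𝔟' s +
        ENNReal.ofReal A * ENNReal.ofReal |C|) := by ring
    _ ≤ Zb M 𝔟' s + (ENNReal.ofReal ((A : ℝ) * |R|) + ENNReal.ofReal ((A : ℝ) * |C|)) := by
        rw [← ENNReal.ofReal_mul (by positivity)]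
        gcongr
    _ = _ := by rw [← ENNReal.ofReal_add (by positivity) (by positivity)]

end Vale.Agent.P022.H191
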