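import Vale.Agent.P022.H191.Second

/-! Cone decompositions and the comparison of the partial zeta functions of the narrow ray
classes: definitions and statements. -/

namespace Vale.Agent.P022.H191

open NumberField Ideal IsDedekindDomain Filter Topology
open scoped ENNReal
open Vale.Agent.P001.H200.Ded

section

variable {K : Type} [Field K] [NumberField K]

/-- `u` is totally positive and congruent to one modulo `M`. -/
def UP (M : ℕ) (u : 𝓞 K) : Prop := u - 1 ∈ idl K M ∧ ∀ σ : K →+* ℝ, 0 < σ u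

/-- The half-open cone `{x : x_0 > 0, x_j ≥ 0}` in the coordinates of a basis. -/
def InCone {n : ℕ} (b : Module.Basis (Fin (n + 1)) ℚ K) (x : K) : Prop :=
  0 < b.repr x 0 ∧ ∀ j, 0 ≤ b.repr x j

/-- Cone decomposition of the totally positive elements modulo the totally positive units
congruent to one modulo `M` (every orbit is met exactly `w` times). -/
structure ConeSys (K : Type) [Field K] [NumberField K] (M : ℕ) where
  n : ℕ
  κ : Type
  fin : Fintype κ
  v : κ → Fin (n + 1) → 𝓞 K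
  b : κ → Module.Basis (Fin (n + 1)) ℚ K
  hb : ∀ k j, b k j = (v k j : K)
  pos : ∀ k (σ : K →+* ℝ), 0 < σ (v k 0) ∧ ∀ j, 0 ≤ σ (v k j)
  mono : ∀ k (x y : K), (∀ j, 0 ≤ (b k).repr x j) →
    (∀ j, (b k).repr x j ≤ (b k).repr y j) → |Algebra.norm ℚ x| ≤ |Algebra.norm ℚ y|
  w : ℕ
  w_pos : 0 < w
  count : ∀ α : 𝓞 K, α ≠ 0 → (∀ σ : K →+* ℝ, 0 < σ α) →
    ENat.card {p : κ × (𝓞 K)ˣ // UP M (p.2 : 𝓞 K) ∧
      InCone (b p.1) (((p.2 : 𝓞 K) * α : 𝓞 K) : K)} = w

/-- partial zeta function of a narrow ray class -/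
noncomputable def Zb (M : ℕ) (𝔟 : Ideal (𝓞 K)) (s : ℝ) : ℝ≥0∞ :=
  ∑' I : {I : Ideal (𝓞 K) // IsP M (I * 𝔟)}, ENNReal.ofReal ((absNorm I.1 : ℝ) ^ (-s))

end

/-- existence of cone decompositions -/
def Cone_statement : Prop :=
  ∀ (K : Type) [Field K] [NumberField K], Module.finrank ℚ K ≤ 2 → ∀ M : ℕ, 0 < M →
    Nonempty (ConeSys K M)

/-- comparison of the partial zeta functions -/
def Comp (K : Type) [Field K] [NumberField K] (M : ℕ) : Prop :=
  ∀ 𝔟 𝔟' : Ideal (𝓞 K), 𝔟 ≠ ⊥ → 𝔟' ≠ ⊥ → IsCoprime 𝔟 (idl K M) → IsCoprime 𝔟' (idl K M) →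
    ∃ C : ℝ, ∀ᶠ s : ℝ in 𝓝[>] 1, Zb M 𝔟 s ≤ Zb M 𝔟' s + ENNReal.ofReal C

/-- block A -/
def BlockA : Prop :=
  (∀ (K : Type) [Field K] [NumberField K], Module.finrank ℚ K ≤ 2 → ∀ M : ℕ, 0 < M → Comp K M) →
    Lbdd_statement

/-- block B -/
def BlockB : Prop :=
  ∀ (K : Type) [Field K] [NumberField K], Module.finrank ℚ K ≤ 2 → ∀ M : ℕ, 0 < M →
    ConeSys K M → Comp K M

theorem second_of_blocks (hA : BlockA) (hB : BlockB) (hC : Cone_statement) : Second_statement := by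
  apply second
  apply hA
  intro K _ _ h2 M hM
  obtain ⟨S⟩ := hC K h2 M hM
  exact hB K h2 M hM S

end Vale.Agent.P022.H191
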