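import Vale.Agent.P022.H191.Dens

/-! Euler product for completely multiplicative functions on ideals, and the logarithmic
inequality. -/

namespace Vale.Agent.P022.H191

open NumberField Ideal IsDedekindDomain Filter Topology
open scoped ENNReal
open Vale.Agent.P001.H200.Ded

section

variable {K : Type} [Field K] [NumberField K]

/-- the term of the L-series -/
noncomputable def tm (ψ : Ideal (𝓞 K) →*₀ ℂ) (s : ℝ) (I : Ideal (𝓞 K)) : ℂ :=
  ψ I * (((absNorm I : ℝ) ^ (-s) : ℝ) : ℂ)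

theorem tm_mul (ψ : Ideal (𝓞 K) →*₀ ℂ) (s : ℝ) (I J : Ideal (𝓞 K)) :
    tm ψ s (I * J) = tm ψ s I * tm ψ s J := by
  unfold tm
  rw [map_mul, map_mul]
  push_cast
  rw [Real.mul_rpow (by positivity) (by positivity)]
  push_cast
  ring

theorem tm_top (ψ : Ideal (𝓞 K) →*₀ ℂ) (s : ℝ) : tm ψ s ⊤ = 1 := by
  unfold tm
  have : ψ ⊤ = 1 := by rw [← Ideal.one_eq_top]; exact map_one ψ
  rw [this]
  simp

theorem tm_pow (ψ : Ideal (𝓞 K) →*₀ ℂ) (s : ℝ) (I : Ideal (𝓞 K)) (k : ℕ) :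
    tm ψ s (I ^ k) = tm ψ s I ^ k := by
  induction k with
  | zero => rw [pow_zero, pow_zero, Ideal.one_eq_top]; exact tm_top ψ s
  | succ k ih => rw [pow_succ, tm_mul, ih, pow_succ]

theorem norm_tm_le {ψ : Ideal (𝓞 K) →*₀ ℂ} (h1 : ∀ I, ‖ψ I‖ ≤ 1) (s : ℝ) (I : Ideal (𝓞 K)) :
    ‖tm ψ s I‖ ≤ (absNorm I : ℝ) ^ (-s) := by
  unfold tm
  have h0 : (0 : ℝ) ≤ (absNorm I : ℝ) ^ (-s) := by positivity
  rw [norm_mul, Complex.norm_real, Real.norm_of_nonneg h0]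
  exact mul_le_of_le_one_left h0 (h1 I)

theorem summable_norm {s : ℝ} (hs : zetaE K s ≠ ∞) :
    Summable fun I : Ideal (𝓞 K) => (absNorm I : ℝ) ^ (-s) := by
  have h := ENNReal.summable_toReal hs
  refine h.congr fun I => ?_
  rw [ENNReal.toReal_ofReal (by positivity)]

theorem summable_tm {ψ : Ideal (𝓞 K) →*₀ ℂ} (h1 : ∀ I, ‖ψ I‖ ≤ 1) {s : ℝ}
    (hs : zetaE K s ≠ ∞) : Summable fun I => ‖tm ψ s I‖ :=
  (summable_norm hs).of_nonneg_of_le (fun _ => norm_nonneg _) (norm_tm_le h1 s)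

theorem pow_mul_inj {Q : Finset (HeightOneSpectrum (𝓞 K))} {p : HeightOneSpectrum (𝓞 K)}
    (hp : p ∉ Q) {k k' : ℕ} {J J' : Ideal (𝓞 K)} (hJ : J ∈ Supp K Q) (hJ' : J' ∈ Supp K Q)
    (h : p.asIdeal ^ k * J = p.asIdeal ^ k' * J') : k = k' ∧ J = J' := by
  have hp0 : p.asIdeal ≠ 0 := p.ne_bot
  have key : ∀ {a b : ℕ} {I I' : Ideal (𝓞 K)}, I' ∈ Supp K Q →
      p.asIdeal ^ a * I = p.asIdeal ^ b * I' → a ≤ b := by
    intro a b I I' hI' hab
    by_contra hcon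
    push Not at hcon
    obtain ⟨c, rfl⟩ := Nat.exists_eq_add_of_lt hcon
    have h2 : p.asIdeal ^ b * (p.asIdeal ^ (c + 1) * I) = p.asIdeal ^ b * I' := by
      rw [← hab, ← mul_assoc, ← pow_add]
      congr 2
    have h3 := mul_left_cancel₀ (pow_ne_zero _ hp0) h2
    apply hp
    apply hI'.2
    rw [← h3, pow_succ']
    exact Dvd.intro _ (by rw [mul_assoc])
  have h1 : k = k' := le_antisymm (key hJ' h) (key hJ h.symm)
  subst h1
  exact ⟨rfl, mul_left_cancel₀ (pow_ne_zero _ hp0) h⟩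

theorem euler_eq {ψ : Ideal (𝓞 K) →*₀ ℂ} (h1 : ∀ I, ‖ψ I‖ ≤ 1) {s : ℝ} (hs1 : 1 ≤ s)
    (hs : zetaE K s ≠ ∞) (Q : Finset (HeightOneSpectrum (𝓞 K))) :
    ∑' I : Supp K Q, tm ψ s I = ∏ p ∈ Q, (1 - tm ψ s p.asIdeal)⁻¹ := by
  classical
  induction Q using Finset.induction_on with
  | empty =>
    rw [Finset.prod_empty]
    have hmem : (⊤ : Ideal (𝓞 K)) ∈ Supp K (∅ : Finset (HeightOneSpectrum (𝓞 K))) := by
      refine ⟨top_ne_bot, fun p hp => ?_⟩
      exact absurd (top_le_iff.1 (Ideal.dvd_iff_le.1 hp)) p.isPrime.ne_top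
    rw [tsum_eq_single ⟨⊤, hmem⟩]
    · exact tm_top ψ s
    · rintro ⟨I, hI⟩ hne
      exact absurd (Subtype.ext (eq_top_of_mem_supp_empty hI)) hne
  | insert p Q hp ih =>
    rw [Finset.prod_insert hp, ← ih]
    have hbij : Function.Bijective (fun x : ℕ × Supp K Q =>
        (⟨p.asIdeal ^ x.1 * (x.2 : Ideal (𝓞 K)), pow_mul_mem_supp p x.1 x.2.2⟩ :
          Supp K (insert p Q))) := by
      constructor
      · rintro ⟨k, J, hJ⟩ ⟨k', J', hJ'⟩ h
        obtain ⟨e1, e2⟩ := pow_mul_inj hp hJ hJ' (congrArg Subtype.val h)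
        subst e1
        subst e2
        rfl
      · rintro ⟨I, hI⟩
        obtain ⟨k, J, hJ, rfl⟩ := exists_of_mem_supp p hI
        exact ⟨(k, ⟨J, hJ⟩), rfl⟩
    rw [← (Equiv.ofBijective _ hbij).tsum_eq]
    have h2 : ∀ x : ℕ × Supp K Q, tm ψ s ((Equiv.ofBijective _ hbij x : Supp K (insert p Q)) :
        Ideal (𝓞 K)) = tm ψ s p.asIdeal ^ x.1 * tm ψ s x.2 := by
      intro x
      change tm ψ s (p.asIdeal ^ x.1 * (x.2 : Ideal (𝓞 K))) = _
      rw [tm_mul, tm_pow]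
    rw [tsum_congr h2]
    have h3 : ‖tm ψ s p.asIdeal‖ < 1 := by
      have h4 := norm_tm_le h1 s p.asIdeal
      have h5 := nm_le_half p hs1
      unfold nm at h5
      linarith
    have h6 : Summable fun k : ℕ => ‖tm ψ s p.asIdeal ^ k‖ := by
      simp_rw [norm_pow]
      exact summable_geometric_of_lt_one (norm_nonneg _) h3
    have h7 : Summable fun I : Supp K Q => ‖tm ψ s I‖ :=
      (summable_tm h1 hs).comp_injective Subtype.val_injective
    rw [← tsum_mul_tsum_of_summable_norm h6 h7, tsum_geometric_of_norm_lt_one h3]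

/-- elementary inequality for an Euler factor -/
theorem exp_le_inv {z : ℂ} (hz : ‖z‖ < 1) : Real.exp (z.re - ‖z‖ ^ 2 / 2) ≤ ‖(1 - z)⁻¹‖ := by
  have h1 : 0 < ‖1 - z‖ := by
    have h2 := norm_sub_norm_le (1 : ℂ) z
    rw [norm_one] at h2
    linarith
  rw [norm_inv, ← one_div, le_div_iff₀ h1]
  have h3 : ‖1 - z‖ ^ 2 ≤ Real.exp (-2 * z.re + ‖z‖ ^ 2) := by
    have h4 : ‖1 - z‖ ^ 2 = 1 + (-2 * z.re + ‖z‖ ^ 2) := by
      rw [← Complex.normSq_eq_norm_sq, ← Complex.normSq_eq_norm_sq, Complex.normSq_apply,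
        Complex.normSq_apply]
      simp
      ring
    rw [h4]
    have := Real.add_one_le_exp (-2 * z.re + ‖z‖ ^ 2)
    linarith
  have h5 : ‖1 - z‖ ≤ Real.exp ((-2 * z.re + ‖z‖ ^ 2) / 2) := by
    apply le_of_sq_le_sq _ (Real.exp_pos _).le
    rw [← Real.exp_nat_mul]
    refine h3.trans (le_of_eq ?_)
    congr 1
    push_cast
    ring
  calc Real.exp (z.re - ‖z‖ ^ 2 / 2) * ‖1 - z‖
      ≤ Real.exp (z.re - ‖z‖ ^ 2 / 2) * Real.exp ((-2 * z.re + ‖z‖ ^ 2) / 2) :=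
        mul_le_mul_of_nonneg_left h5 (Real.exp_pos _).le
    _ = 1 := by
        rw [← Real.exp_add, ← Real.exp_zero]
        congr 1
        ring

/-- finite Euler products tend to the L-series -/
theorem tendsto_euler {ψ : Ideal (𝓞 K) →*₀ ℂ} (h1 : ∀ I, ‖ψ I‖ ≤ 1) {s : ℝ} (hs1 : 1 ≤ s)
    (hs : zetaE K s ≠ ∞) :
    Tendsto (fun Q : Finset (HeightOneSpectrum (𝓞 K)) => ∏ p ∈ Q, (1 - tm ψ s p.asIdeal)⁻¹) atTop
      (𝓝 (∑' I : Ideal (𝓞 K), tm ψ s I)) := by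
  classical
  have h2 : ∀ Q : Finset (HeightOneSpectrum (𝓞 K)), ∏ p ∈ Q, (1 - tm ψ s p.asIdeal)⁻¹ =
      ∑' I : Ideal (𝓞 K), (Supp K Q).indicator (tm ψ s) I := by
    intro Q
    rw [← euler_eq h1 hs1 hs Q, ← tsum_subtype (Supp K Q) (tm ψ s)]
  simp_rw [h2]
  refine tendsto_tsum_of_dominated_convergence (summable_tm h1 hs) (fun I => ?_) ?_
  · rcases eq_or_ne I ⊥ with rfl | hI
    · have h0 : tm ψ s ⊥ = 0 := by
        unfold tm
        rw [← Ideal.zero_eq_bot, map_zero, zero_mul]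
      have h3 : ∀ Q : Finset (HeightOneSpectrum (𝓞 K)), (Supp K Q).indicator (tm ψ s) ⊥ = 0 := by
        intro Q
        by_cases h : (⊥ : Ideal (𝓞 K)) ∈ Supp K Q
        · rw [Set.indicator_of_mem h, h0]
        · rw [Set.indicator_of_notMem h]
      simp_rw [h3, h0]
      exact tendsto_const_nhds
    · apply tendsto_const_nhds.congr'
      filter_upwards [eventually_ge_atTop (Ideal.finite_factors
        (show I ≠ 0 from hI)).toFinset] with Q hQ
      rw [Set.indicator_of_mem]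
      refine ⟨hI, fun p hp => hQ ?_⟩
      simpa using hp
  · filter_upwards with Q I
    exact norm_indicator_le_norm_self _ _

/-- **Logarithmic inequality**: if the L-series stays bounded, so does the real part of the sum
over the primes. -/
theorem re_sum_le {ψ : Ideal (𝓞 K) →*₀ ℂ} (h1 : ∀ I, ‖ψ I‖ ≤ 1)
    (hB : ∃ B : ℝ, ∀ᶠ s : ℝ in 𝓝[>] 1, ‖∑' I : Ideal (𝓞 K), tm ψ s I‖ ≤ B) :
    ∃ C : ℝ, ∀ᶠ s : ℝ in 𝓝[>] 1,
      (Summable fun p : HeightOneSpectrum (𝓞 K) => (ψ p.asIdeal).re * nm K p s) ∧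
      ∑' p : HeightOneSpectrum (𝓞 K), (ψ p.asIdeal).re * nm K p s ≤ C := by
  obtain ⟨B, hB⟩ := hB
  refine ⟨Real.log (|B| + 1) + (zetaE K 2).toReal / 2, ?_⟩
  filter_upwards [hB, eventually_ne_top K, self_mem_nhdsWithin] with s hB hs hs1
  have hs1' : (1 : ℝ) < s := hs1
  have hre : ∀ p : HeightOneSpectrum (𝓞 K), (tm ψ s p.asIdeal).re =
      (ψ p.asIdeal).re * nm K p s := by
    intro p
    unfold tm nm
    rw [Complex.re_mul_ofReal]
  have hinj : Function.Injective (fun p : HeightOneSpectrum (𝓞 K) => p.asIdeal) :=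
    fun p q h => HeightOneSpectrum.ext h
  have hsum : Summable fun p : HeightOneSpectrum (𝓞 K) => (ψ p.asIdeal).re * nm K p s := by
    have h3 : Summable fun p : HeightOneSpectrum (𝓞 K) => ‖tm ψ s p.asIdeal‖ :=
      (summable_tm h1 hs).comp_injective hinj
    refine Summable.of_norm_bounded h3 fun p => ?_
    rw [← hre]
    exact Complex.abs_re_le_norm _
  refine ⟨hsum, ?_⟩
  have h4 := (tendsto_euler h1 hs1'.le hs).norm
  have h5 : ‖∑' I : Ideal (𝓞 K), tm ψ s I‖ < |B| + 1 := by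
    have := le_abs_self B
    linarith
  have h6 := h4.eventually_lt_const h5
  refine le_of_tendsto hsum.hasSum ?_
  filter_upwards [h6] with Q hQ
  have hlt : ∀ p ∈ Q, ‖tm ψ s p.asIdeal‖ < 1 := by
    intro p _
    have h4 := norm_tm_le h1 s p.asIdeal
    have h5 := nm_le_half p hs1'.le
    unfold nm at h5
    linarith
  have h7 : Real.exp (∑ p ∈ Q, ((tm ψ s p.asIdeal).re - ‖tm ψ s p.asIdeal‖ ^ 2 / 2)) ≤ |B| + 1 := by
    rw [Real.exp_sum]
    refine le_trans ?_ hQ.le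
    rw [norm_prod]
    exact Finset.prod_le_prod (fun p _ => (Real.exp_pos _).le) fun p hp => exp_le_inv (hlt p hp)
  have h8 : (0 : ℝ) < |B| + 1 := by positivity
  rw [← Real.le_log_iff_exp_le h8, Finset.sum_sub_distrib] at h7
  have h9 : ∑ p ∈ Q, ‖tm ψ s p.asIdeal‖ ^ 2 / 2 ≤ (zetaE K 2).toReal / 2 := by
    rw [← Finset.sum_div]
    apply div_le_div_of_nonneg_right _ (by norm_num)
    refine le_trans (Finset.sum_le_sum fun p _ => ?_) (sum_sq_le Q hs1'.le)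
    exact pow_le_pow_left₀ (norm_nonneg _) (norm_tm_le h1 s p.asIdeal) 2
  calc ∑ p ∈ Q, (ψ p.asIdeal).re * nm K p s = ∑ p ∈ Q, (tm ψ s p.asIdeal).re :=
        Finset.sum_congr rfl fun p _ => (hre p).symm
    _ ≤ _ := by linarith

end

end Vale.Agent.P022.H191
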