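import Vale.Agent.P022.H191.Cone

/-! Lattice points in a cone: division with remainder in the coordinates of a basis. -/

namespace Vale.Agent.P022.H191

open NumberField Ideal IsDedekindDomain Filter Topology
open scoped ENNReal

section

variable {K : Type} [Field K] [NumberField K] {n : ℕ} (b : Module.Basis (Fin (n + 1)) ℚ K)
  (v : Fin (n + 1) → 𝓞 K)

/-- integral combinations -/
def comb : (Fin (n + 1) → ℤ) →+ 𝓞 K where
  toFun i := ∑ j, (i j : 𝓞 K) * v j
  map_zero' := by simp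
  map_add' i i' := by
    simp only [Pi.add_apply, Int.cast_add, add_mul, Finset.sum_add_distrib]

theorem comb_coe (hb : ∀ j, b j = (v j : K)) (i : Fin (n + 1) → ℤ) :
    ((comb v i : 𝓞 K) : K) = ∑ j, (i j : ℚ) • b j := by
  change ((∑ j, (i j : 𝓞 K) * v j : 𝓞 K) : K) = _
  push_cast
  refine Finset.sum_congr rfl fun j _ => ?_
  rw [hb, Rat.smul_def]
  push_cast
  rfl

theorem repr_comb (hb : ∀ j, b j = (v j : K)) (i : Fin (n + 1) → ℤ) (j : Fin (n + 1)) :
    b.repr (comb v i : K) j = i j := by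
  rw [comb_coe b v hb, b.repr_sum_self]

/-- half-open intervals -/
def bd (m : ℕ) (j : Fin (n + 1)) : Set ℚ :=
  if j = 0 then Set.Ioc 0 (0 + (m : ℚ)) else Set.Ico 0 (0 + (m : ℚ))

theorem bd_unique {m : ℕ} (hm : 0 < m) (j : Fin (n + 1)) (x : ℚ) :
    ∃! a : ℤ, x - a * m ∈ bd m j := by
  have hm' : (0 : ℚ) < m := by exact_mod_cast hm
  have h1 : ∀ a : ℤ, x - a * m = x - a • (m : ℚ) := by
    intro a
    rw [zsmul_eq_mul]
  simp_rw [h1]
  unfold bd
  split_ifs
  · exact existsUnique_sub_zsmul_mem_Ioc hm' x 0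
  · exact existsUnique_sub_zsmul_mem_Ico hm' x 0

/-- elements in the fundamental box -/
def InBox (m : ℕ) (x : K) : Prop := ∀ j, b.repr x j ∈ bd m j

theorem box_unique (hb : ∀ j, b j = (v j : K)) {m : ℕ} (hm : 0 < m) (x : 𝓞 K) :
    ∃! i : Fin (n + 1) → ℤ, InBox b m ((x - m * comb v i : 𝓞 K) : K) := by
  have h1 : ∀ i : Fin (n + 1) → ℤ, ∀ j, b.repr ((x - m * comb v i : 𝓞 K) : K) j =
      b.repr (x : K) j - i j * m := by
    intro i j
    have h2 : ((x - m * comb v i : 𝓞 K) : K) = (x : K) - (m : ℚ) • ((comb v i : 𝓞 K) : K) := by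
      push_cast
      rw [Rat.smul_def]
      push_cast
      rfl
    rw [h2, map_sub, map_smul, Finsupp.sub_apply, Finsupp.smul_apply, repr_comb b v hb,
      smul_eq_mul, mul_comm]
  choose a ha ha' using fun j => bd_unique hm j (b.repr (x : K) j)
  refine ⟨a, fun j => ?_, fun i hi => ?_⟩
  · rw [h1]
    exact ha j
  · funext j
    apply ha' j
    have := hi j
    rw [h1] at this
    exact this

theorem repr_add_comb (hb : ∀ j, b j = (v j : K)) (m : ℕ) (x : 𝓞 K) (i : Fin (n + 1) → ℤ)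
    (j : Fin (n + 1)) : b.repr ((x + m * comb v i : 𝓞 K) : K) j = b.repr (x : K) j + i j * m := by
  have h2 : ((x + m * comb v i : 𝓞 K) : K) = (x : K) + (m : ℚ) • ((comb v i : 𝓞 K) : K) := by
    push_cast
    rw [Rat.smul_def]
    push_cast
    rfl
  rw [h2, map_add, map_smul, Finsupp.add_apply, Finsupp.smul_apply, repr_comb b v hb,
    smul_eq_mul, mul_comm]

theorem InBox.cone {m : ℕ} {x : K} (h : InBox b m x) : InCone b x := by
  refine ⟨?_, fun j => ?_⟩
  · have := h 0
    unfold bd at this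
    rw [if_pos rfl] at this
    exact this.1
  · have := h j
    unfold bd at this
    split_ifs at this
    · exact this.1.le
    · exact this.1

/-- natural number vectors as integer vectors -/
def nz (i : Fin (n + 1) → ℕ) : Fin (n + 1) → ℤ := fun j => (i j : ℤ)

theorem nz_inj : Function.Injective (nz (n := n)) := by
  intro i i' h
  funext j
  have := congrFun h j
  unfold nz at this
  exact_mod_cast this

theorem cone_add {m : ℕ} (hb : ∀ j, b j = (v j : K)) {x : 𝓞 K} (h : InBox b m (x : K))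
    (i : Fin (n + 1) → ℕ) : InCone b ((x + m * comb v (nz i) : 𝓞 K) : K) := by
  have h1 := h.cone
  have h2 : ∀ j, (0 : ℚ) ≤ (nz i j : ℚ) * m := by
    intro j
    unfold nz
    positivity
  refine ⟨?_, fun j => ?_⟩
  · rw [repr_add_comb b v hb]
    have := h1.1
    have := h2 0
    linarith
  · rw [repr_add_comb b v hb]
    have := h1.2 j
    have := h2 j
    linarith

/-- the box part of the coset `x₀ + G` -/
def Rb (m : ℕ) (G : AddSubgroup (𝓞 K)) (x0 : 𝓞 K) : Set (𝓞 K) :=
  {α | α - x0 ∈ G ∧ InBox b m (α : K)}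

/-- the cone part of the coset `x₀ + G` -/
def Cb (G : AddSubgroup (𝓞 K)) (x0 : 𝓞 K) : Set (𝓞 K) :=
  {α | α - x0 ∈ G ∧ InCone b (α : K)}

/-- division with remainder as a bijection -/
theorem bij (hb : ∀ j, b j = (v j : K)) {m : ℕ} (hm : 0 < m) (G : AddSubgroup (𝓞 K))
    (hG : ∀ i, (m : 𝓞 K) * comb v i ∈ G) (x0 : 𝓞 K) :
    ∃ e : Rb b m G x0 × (Fin (n + 1) → ℕ) ≃ Cb b G x0, ∀ p,
      ((e p : 𝓞 K)) = p.1 + m * comb v (nz p.2) := by
  have hmem : ∀ p : Rb b m G x0 × (Fin (n + 1) → ℕ),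
      (p.1 : 𝓞 K) + m * comb v (nz p.2) ∈ Cb b G x0 := by
    intro p
    refine ⟨?_, cone_add b v hb p.1.2.2 p.2⟩
    have : (p.1 : 𝓞 K) + m * comb v (nz p.2) - x0 = (p.1 - x0) + m * comb v (nz p.2) := by ring
    rw [this]
    exact G.add_mem p.1.2.1 (hG _)
  refine ⟨Equiv.ofBijective (fun p => ⟨_, hmem p⟩) ⟨?_, ?_⟩, fun p => rfl⟩
  · rintro ⟨r, i⟩ ⟨r', i'⟩ h
    have h1 : (r : 𝓞 K) + m * comb v (nz i) = r' + m * comb v (nz i') := congrArg Subtype.val h
    have h2 : (r : 𝓞 K) + m * comb v (nz i) - m * comb v (nz i) = r := by ring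
    have h3 : (r : 𝓞 K) + m * comb v (nz i) - m * comb v (nz i') = r' := by rw [h1]; ring
    have h4 := (box_unique b v hb hm ((r : 𝓞 K) + m * comb v (nz i))).unique
      (y₁ := nz i) (y₂ := nz i') (by rw [h2]; exact r.2.2) (by rw [h3]; exact r'.2.2)
    have h5 := nz_inj h4
    subst h5
    have h6 : (r : 𝓞 K) = r' := add_right_cancel h1
    rw [Subtype.ext h6]
  · rintro ⟨α, hα1, hα2⟩
    obtain ⟨i, hi, -⟩ := box_unique b v hb hm α
    have hm' : (0 : ℚ) < m := by exact_mod_cast hm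
    have hco : ∀ j, b.repr (α : K) j =
        b.repr ((α - m * comb v i : 𝓞 K) : K) j + i j * m := by
      intro j
      have h2 : α = (α - m * comb v i) + m * comb v i := by ring
      conv_lhs => rw [h2]
      rw [repr_add_comb b v hb]
    have hpos : ∀ j, 0 ≤ i j := by
      intro j
      have h3 := hi j
      have h4 := hco j
      by_contra hcon
      push Not at hcon
      have h5 : i j ≤ -1 := by omega
      have h6 : (i j : ℚ) ≤ -1 := by exact_mod_cast h5
      have h7 : (i j : ℚ) * m ≤ -m := by nlinarith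
      unfold bd at h3
      split_ifs at h3 with hj
      · have h8 := hα2.1
        subst hj
        have h9 := h3.2
        linarith
      · have h8 := hα2.2 j
        have h9 := h3.2
        linarith
    have hnz : nz (fun j => (i j).toNat) = i := by
      funext j
      unfold nz
      exact Int.toNat_of_nonneg (hpos j)
    refine ⟨(⟨α - m * comb v i, ?_, hi⟩, fun j => (i j).toNat), ?_⟩
    · have : α - m * comb v i - x0 = (α - x0) - m * comb v i := by ring
      rw [this]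
      exact G.sub_mem hα1 (hG _)
    · apply Subtype.ext
      change α - m * comb v i + m * comb v (nz (fun j => (i j).toNat)) = α
      rw [hnz]
      ring

/-- the sum over a coset in a cone -/
theorem tsum_cone (hb : ∀ j, b j = (v j : K)) {m : ℕ} (hm : 0 < m) (G : AddSubgroup (𝓞 K))
    (hG : ∀ i, (m : 𝓞 K) * comb v i ∈ G) (x0 : 𝓞 K) (f : 𝓞 K → ℝ≥0∞) :
    ∑' α : Cb b G x0, f α =
      ∑' r : Rb b m G x0, ∑' i : Fin (n + 1) → ℕ, f (r + m * comb v (nz i)) := by
  obtain ⟨e, he⟩ := bij b v hb hm G hG x0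
  rw [← e.tsum_eq, ← ENNReal.tsum_prod]
  exact tsum_congr fun p => by rw [he]

/-- the multiples of `m` in the lattice spanned by `v` -/
def Hm (m : ℕ) : AddSubgroup (𝓞 K) :=
  ((AddMonoidHom.mulLeft (m : 𝓞 K)).comp (comb v)).range

/-- the number of residues -/
theorem card_Rb (hb : ∀ j, b j = (v j : K)) {m : ℕ} (hm : 0 < m) (G : AddSubgroup (𝓞 K))
    (hG : Hm v m ≤ G) (x0 : 𝓞 K) : Nat.card (Rb b m G x0) = (Hm v m).relIndex G := by
  have hG' : ∀ i, (m : 𝓞 K) * comb v i ∈ G := fun i => hG ⟨i, rfl⟩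
  rw [AddSubgroup.relIndex, AddSubgroup.index]
  refine Nat.card_congr (Equiv.ofBijective
    (fun r : Rb b m G x0 => (QuotientAddGroup.mk (⟨(r : 𝓞 K) - x0, r.2.1⟩ : G) :
      G ⧸ (Hm v m).addSubgroupOf G)) ⟨?_, ?_⟩)
  · intro r r' h
    have h1 := QuotientAddGroup.eq.1 h
    rw [AddSubgroup.mem_addSubgroupOf] at h1
    obtain ⟨i, hi⟩ := h1
    have hi' : (m : 𝓞 K) * comb v i = -((r : 𝓞 K) - x0) + ((r' : 𝓞 K) - x0) := hi
    have h2 : (r' : 𝓞 K) - m * comb v i = r := by rw [hi']; ring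
    have h3 : (r' : 𝓞 K) - m * comb v 0 = r' := by simp
    have h4 := (box_unique b v hb hm (r' : 𝓞 K)).unique
      (y₁ := i) (y₂ := 0) (by rw [h2]; exact r.2.2) (by rw [h3]; exact r'.2.2)
    apply Subtype.ext
    rw [← h2, h4]
    simp
  · intro y
    obtain ⟨⟨g, hg⟩, rfl⟩ := QuotientAddGroup.mk_surjective y
    obtain ⟨i, hi, -⟩ := box_unique b v hb hm (g + x0)
    refine ⟨⟨g + x0 - m * comb v i, ?_, hi⟩, ?_⟩
    · have : g + x0 - m * comb v i - x0 = g - m * comb v i := by ring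
      rw [this]
      exact G.sub_mem hg (hG' i)
    · apply QuotientAddGroup.eq.2
      rw [AddSubgroup.mem_addSubgroupOf]
      refine ⟨i, ?_⟩
      change (m : 𝓞 K) * comb v i = -(g + x0 - m * comb v i - x0) + g
      ring

/-- the box contains finitely many integers -/
theorem finite_box (m : ℕ) : {α : 𝓞 K | InBox b m (α : K)}.Finite := by
  classical
  set B : ℝ := ∑ j, (m : ℝ) * ∑ φ : K →+* ℂ, ‖φ (b j)‖ with hB
  have h1 := NumberField.Embeddings.finite_of_norm_le K ℂ B
  have hinj : Function.Injective (fun α : 𝓞 K => (α : K)) := RingOfIntegers.coe_injective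
  refine (h1.preimage hinj.injOn).subset fun α hα => ?_
  refine ⟨α.isIntegral_coe, fun φ => ?_⟩
  change ‖φ (α : K)‖ ≤ B
  have h2 := b.sum_repr (α : K)
  rw [← h2, map_sum]
  refine (norm_sum_le _ _).trans (Finset.sum_le_sum fun j _ => ?_)
  rw [Rat.smul_def, map_mul, map_ratCast, norm_mul]
  have h3 : 0 ≤ b.repr (α : K) j ∧ b.repr (α : K) j ≤ m := by
    have h4 := hα j
    unfold bd at h4
    split_ifs at h4
    · exact ⟨h4.1.le, by linarith [h4.2]⟩
    · exact ⟨h4.1, by linarith [h4.2]⟩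
  have h5 : ‖((b.repr (α : K) j : ℚ) : ℂ)‖ ≤ m := by
    rw [Complex.norm_ratCast, abs_of_nonneg (by exact_mod_cast h3.1)]
    exact_mod_cast h3.2
  have h6 : ‖φ (b j)‖ ≤ ∑ φ : K →+* ℂ, ‖φ (b j)‖ :=
    Finset.single_le_sum (f := fun φ : K →+* ℂ => ‖φ (b j)‖) (fun _ _ => norm_nonneg _)
      (Finset.mem_univ φ)
  exact mul_le_mul h5 h6 (norm_nonneg _) (Nat.cast_nonneg _)

end

end Vale.Agent.P022.H191
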