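import Vale.Agent.P022.H191.Euler

/-! The second inequality from the boundedness of L-series. -/

namespace Vale.Agent.P022.H191

open NumberField Ideal IsDedekindDomain Filter Topology
open scoped ENNReal
open Vale.Agent.P001.H200.Ded

/-- The L-series of a nontrivial narrow ray class character is bounded near `1`. -/
def Lbdd_statement : Prop :=
  ∀ (K : Type) [Field K] [NumberField K], Module.finrank ℚ K ≤ 2 →
    ∀ (M : ℕ), 0 < M → ∀ ψ : Ideal (𝓞 K) →*₀ ℂ, NRay ψ M →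
      (∃ 𝔞 : Ideal (𝓞 K), 𝔞 ≠ ⊥ ∧ IsCoprime 𝔞 (idl K M) ∧ ψ 𝔞 ≠ 1) →
      ∃ B : ℝ, ∀ᶠ s : ℝ in 𝓝[>] 1, ‖∑' I : Ideal (𝓞 K), tm ψ s I‖ ≤ B

section

variable {K : Type} [Field K] [NumberField K]

/-- the ideals `(α)` with `α` totally positive and congruent to `1` modulo `M` -/
def IsP (M : ℕ) (I : Ideal (𝓞 K)) : Prop :=
  ∃ α : 𝓞 K, α ≠ 0 ∧ α - 1 ∈ idl K M ∧ (∀ σ : K →+* ℝ, 0 < σ α) ∧ I = Ideal.span {α}

theorem IsP.one (M : ℕ) : IsP M (1 : Ideal (𝓞 K)) :=
  ⟨1, one_ne_zero, by simp, fun σ => by simp, by simp [Ideal.one_eq_top]⟩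

theorem IsP.mul {M : ℕ} {I J : Ideal (𝓞 K)} (hI : IsP M I) (hJ : IsP M J) : IsP M (I * J) := by
  obtain ⟨α, h1, h2, h3, rfl⟩ := hI
  obtain ⟨β, k1, k2, k3, rfl⟩ := hJ
  refine ⟨α * β, mul_ne_zero h1 k1, ?_, fun σ => ?_, ?_⟩
  · have : α * β - 1 = α * (β - 1) + (α - 1) := by ring
    rw [this]
    exact Ideal.add_mem _ (Ideal.mul_mem_left _ _ k2) h2
  · have := mul_pos (h3 σ) (k3 σ)
    push_cast
    rwa [map_mul]
  · rw [Ideal.span_singleton_mul_span_singleton]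

theorem idl_ne_bot {M : ℕ} (hM : 0 < M) : idl K M ≠ ⊥ := by
  unfold idl
  rw [Ne, Ideal.span_singleton_eq_bot]
  exact_mod_cast hM.ne'

/-- a power of every ideal coprime to `M` is of the form `(α)`, `α` totally positive and
congruent to `1` modulo `M` -/
theorem exists_pow_isP {M : ℕ} (hM : 0 < M) {I : Ideal (𝓞 K)} (h0 : I ≠ ⊥)
    (hI : IsCoprime I (idl K M)) : ∃ k : ℕ, 0 < k ∧ IsP M (I ^ k) := by
  classical
  -- a power is principal
  have hcl : ∃ h : ℕ, 0 < h ∧ ∃ β : 𝓞 K, I ^ h = Ideal.span {β} := by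
    refine ⟨Fintype.card (ClassGroup (𝓞 K)), Fintype.card_pos, ?_⟩
    have hI0 : I ∈ nonZeroDivisors (Ideal (𝓞 K)) := mem_nonZeroDivisors_of_ne_zero h0
    have h1 : ClassGroup.mk0 (⟨I, hI0⟩ ^ Fintype.card (ClassGroup (𝓞 K))) = 1 := by
      rw [map_pow]
      exact pow_card_eq_one
    rw [ClassGroup.mk0_eq_one_iff] at h1
    obtain ⟨β, hβ⟩ := h1.principal
    exact ⟨β, by simpa using hβ⟩
  obtain ⟨h, hh, β, hβ⟩ := hcl
  have hβ0 : β ≠ 0 := by
    rintro rfl
    rw [Ideal.span_singleton_eq_bot.2 rfl] at hβ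
    exact h0 (pow_eq_zero_iff hh.ne' |>.1 hβ)
  have hcop : IsCoprime (Ideal.span {β}) (idl K M) := hβ ▸ hI.pow_left
  -- a power is congruent to `1`
  have : Finite (𝓞 K ⧸ idl K M) := Ideal.finiteQuotientOfFreeOfNeBot _ (idl_ne_bot hM)
  have hunit : IsUnit (Ideal.Quotient.mk (idl K M) β) := by
    rw [Ideal.isCoprime_iff_exists] at hcop
    obtain ⟨x, hx, y, hy, hxy⟩ := hcop
    obtain ⟨c, rfl⟩ := Ideal.mem_span_singleton.1 hx
    have h2 := congrArg (Ideal.Quotient.mk (idl K M)) hxy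
    rw [map_add, Ideal.Quotient.eq_zero_iff_mem.2 hy, add_zero, map_mul, map_one] at h2
    exact IsUnit.of_mul_eq_one _ h2
  obtain ⟨u, hu⟩ := hunit
  have hfin : Finite (𝓞 K ⧸ idl K M)ˣ := inferInstance
  have hk : 0 < Nat.card (𝓞 K ⧸ idl K M)ˣ := Nat.card_pos
  refine ⟨h * (2 * Nat.card (𝓞 K ⧸ idl K M)ˣ), by positivity,
    β ^ (2 * Nat.card (𝓞 K ⧸ idl K M)ˣ), pow_ne_zero _ hβ0, ?_, fun σ => ?_, ?_⟩
  · rw [← Ideal.Quotient.eq_zero_iff_mem, map_sub, map_pow, map_one, ← hu, mul_comm 2, pow_mul,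
      ← Units.val_pow_eq_pow_val, pow_card_eq_one', Units.val_one, one_pow, sub_self]
  · push_cast
    rw [map_pow, pow_mul]
    apply pow_pos
    have : σ (β : K) ≠ 0 := by
      rw [map_ne_zero]
      exact_mod_cast hβ0
    positivity
  · rw [pow_mul, hβ, Ideal.span_singleton_pow]

theorem NRay.isP {ξ : Ideal (𝓞 K) →*₀ ℂ} {M : ℕ} (h : NRay ξ M) {I : Ideal (𝓞 K)}
    (hI : IsP M I) : ξ I = 1 := by
  obtain ⟨α, h1, h2, h3, rfl⟩ := hI
  exact h.princ α h1 h2 h3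

theorem NRay.norm_eq {ξ : Ideal (𝓞 K) →*₀ ℂ} {M : ℕ} (hM : 0 < M) (h : NRay ξ M)
    {I : Ideal (𝓞 K)} (h0 : I ≠ ⊥) (hI : IsCoprime I (idl K M)) : ‖ξ I‖ = 1 := by
  obtain ⟨k, hk, hP⟩ := exists_pow_isP hM h0 hI
  have h1 := h.isP hP
  rw [map_pow] at h1
  have h2 : ‖ξ I‖ ^ k = 1 := by rw [← norm_pow, h1, norm_one]
  exact (pow_eq_one_iff_of_nonneg (norm_nonneg _) hk.ne').1 h2

theorem NRay.norm_le {ξ : Ideal (𝓞 K) →*₀ ℂ} {M : ℕ} (hM : 0 < M) (h : NRay ξ M)
    (I : Ideal (𝓞 K)) : ‖ξ I‖ ≤ 1 := by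
  by_cases h0 : I = ⊥
  · rw [h0, ← Ideal.zero_eq_bot, map_zero, norm_zero]
    exact zero_le_one
  by_cases hI : IsCoprime I (idl K M)
  · exact (h.norm_eq hM h0 hI).le
  · have : ξ I = 0 := by
      by_contra hcon
      exact hI ((h.supp I h0).1 hcon)
    rw [this, norm_zero]
    exact zero_le_one

open Classical in
/-- change of modulus -/
noncomputable def restr (ξ : Ideal (𝓞 K) →*₀ ℂ) (M : ℕ) : Ideal (𝓞 K) →*₀ ℂ where
  toFun I := if IsCoprime I (idl K M) then ξ I else 0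
  map_zero' := by rw [map_zero, ite_self]
  map_one' := by
    rw [if_pos (isCoprime_one_left), map_one]
  map_mul' I J := by
    simp only [IsCoprime.mul_left_iff]
    split_ifs <;> simp_all

open Classical in
theorem restr_apply (ξ : Ideal (𝓞 K) →*₀ ℂ) (M : ℕ) {I : Ideal (𝓞 K)}
    (h : IsCoprime I (idl K M)) : restr ξ M I = ξ I := by
  change (if IsCoprime I (idl K M) then ξ I else 0) = _
  rw [if_pos h]

open Classical in
theorem restr_apply_not (ξ : Ideal (𝓞 K) →*₀ ℂ) (M : ℕ) {I : Ideal (𝓞 K)}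
    (h : ¬ IsCoprime I (idl K M)) : restr ξ M I = 0 := by
  change (if IsCoprime I (idl K M) then ξ I else 0) = _
  rw [if_neg h]

theorem idl_le {M M' : ℕ} (h : M ∣ M') : idl K M' ≤ idl K M := by
  unfold idl
  rw [Ideal.span_singleton_le_span_singleton]
  obtain ⟨c, rfl⟩ := h
  exact ⟨c, by push_cast; ring⟩

theorem coprime_of_dvd {M M' : ℕ} (h : M ∣ M') {I : Ideal (𝓞 K)} (hI : IsCoprime I (idl K M')) :
    IsCoprime I (idl K M) := by
  rw [Ideal.isCoprime_iff_sup_eq] at hI ⊢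
  exact top_le_iff.1 (hI.ge.trans (sup_le_sup_left (idl_le h) _))

theorem NRay.restr {ξ : Ideal (𝓞 K) →*₀ ℂ} {M M' : ℕ} (h : NRay ξ M) (hd : M ∣ M') :
    NRay (restr ξ M') M' where
  supp I h0 := by
    by_cases hI : IsCoprime I (idl K M')
    · rw [restr_apply ξ M' hI]
      exact ⟨fun _ => hI, fun _ => (h.supp I h0).2 (coprime_of_dvd hd hI)⟩
    · rw [restr_apply_not ξ M' hI]
      exact ⟨fun h => absurd rfl h, fun h => absurd h hI⟩
  princ α h0 h1 h2 := by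
    rw [restr_apply]
    · exact h.princ α h0 (idl_le hd h1) h2
    · rw [Ideal.isCoprime_iff_exists]
      refine ⟨α, Ideal.mem_span_singleton_self α, -(α - 1), Submodule.neg_mem _ h1, by ring⟩

/-- `ξ` times the conjugate of `ξ'` -/
noncomputable def cj (ξ ξ' : Ideal (𝓞 K) →*₀ ℂ) : Ideal (𝓞 K) →*₀ ℂ where
  toFun I := ξ I * starRingEnd ℂ (ξ' I)
  map_zero' := by rw [map_zero, zero_mul]
  map_one' := by rw [map_one, map_one, map_one, one_mul]
  map_mul' I J := by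
    simp only [map_mul]
    ring

theorem NRay.cj {ξ ξ' : Ideal (𝓞 K) →*₀ ℂ} {M : ℕ} (h : NRay ξ M) (h' : NRay ξ' M) :
    NRay (cj ξ ξ') M where
  supp I h0 := by
    change ξ I * starRingEnd ℂ (ξ' I) ≠ 0 ↔ _
    rw [mul_ne_zero_iff, h.supp I h0, map_ne_zero, h'.supp I h0, and_self]
  princ α h0 h1 h2 := by
    change ξ _ * starRingEnd ℂ (ξ' _) = 1
    rw [h.princ α h0 h1 h2, h'.princ α h0 h1 h2]
    simp

theorem coprime_of_notMem {M : ℕ} {𝔭 : Ideal (𝓞 K)} (h𝔭 : 𝔭.IsMaximal)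
    (h : ¬ 𝔭 ∣ idl K M) : IsCoprime 𝔭 (idl K M) := by
  rw [Ideal.isCoprime_iff_sup_eq]
  by_contra hcon
  apply h
  rw [Ideal.dvd_iff_le]
  have := h𝔭.eq_of_le hcon le_sup_left
  rw [this]
  exact le_sup_right

/-- summability of the prime sum -/
theorem summable_nm {s : ℝ} (hs : zetaE K s ≠ ∞) :
    Summable fun p : HeightOneSpectrum (𝓞 K) => nm K p s := by
  have hinj : Function.Injective (fun p : HeightOneSpectrum (𝓞 K) => p.asIdeal) :=
    fun p q h => HeightOneSpectrum.ext h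
  exact (summable_norm hs).comp_injective hinj

/-- the prime sum, real version of the upper bound -/
theorem upper_real (K : Type) [Field K] [NumberField K] : ∃ C : ℝ, ∀ᶠ s : ℝ in 𝓝[>] 1,
    ∑' p : HeightOneSpectrum (𝓞 K), nm K p s ≤ Real.log (1 / (s - 1)) + C := by
  obtain ⟨C, hC⟩ := upper K
  refine ⟨C, ?_⟩
  filter_upwards [hC, eventually_ne_top K, tendsto_log_one_div.eventually_ge_atTop (|C|)]
    with s h1 h2 h3
  rw [← ENNReal.ofReal_tsum_of_nonneg (fun p => nm_nonneg p s) (summable_nm h2)] at h1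
  have := neg_abs_le C
  exact (ENNReal.ofReal_le_ofReal_iff (by linarith)).1 h1

end

theorem second (hL : Lbdd_statement) : Second_statement := by
  intro K L _ _ _ _ _ hgal hdeg ι _ M ξ hM hξ hne hsp
  classical
  rcases Nat.eq_zero_or_pos (Fintype.card ι) with h0 | hcard
  · omega
  -- the common modulus
  set N : ℕ := ∏ i, M i with hN
  have hN0 : 0 < N := Finset.prod_pos fun i _ => hM i
  have hdvd : ∀ i, M i ∣ N := fun i => Finset.dvd_prod_of_mem M (Finset.mem_univ i)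
  set η : ι → (Ideal (𝓞 K) →*₀ ℂ) := fun i => restr (ξ i) N with hη
  have hηN : ∀ i, NRay (η i) N := fun i => (hξ i).restr (hdvd i)
  have hη1 : ∀ i I, ‖η i I‖ ≤ 1 := fun i I => (hηN i).norm_le hN0 I
  have hcj : ∀ i j, NRay (cj (η i) (η j)) N := fun i j => (hηN i).cj (hηN j)
  have hcj1 : ∀ i j I, ‖cj (η i) (η j) I‖ ≤ 1 := fun i j I => (hcj i j).norm_le hN0 I
  have hinj : Function.Injective (fun 𝔭 : HeightOneSpectrum (𝓞 K) => 𝔭.asIdeal) :=
    fun p q h => HeightOneSpectrum.ext h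
  -- primes dividing the modulus
  have hfinN : {𝔭 : HeightOneSpectrum (𝓞 K) | 𝔭.asIdeal ∣ idl K N}.Finite :=
    Ideal.finite_factors (show idl K N ≠ 0 from idl_ne_bot hN0)
  have hcop : ∀ 𝔭 : HeightOneSpectrum (𝓞 K), ¬ 𝔭.asIdeal ∣ idl K N →
      IsCoprime 𝔭.asIdeal (idl K N) := fun 𝔭 h => coprime_of_notMem 𝔭.isMaximal h
  -- off-diagonal terms
  have hoff : ∀ i j, i ≠ j → ∃ C : ℝ, ∀ᶠ s : ℝ in 𝓝[>] 1,
      (Summable fun p : HeightOneSpectrum (𝓞 K) => (cj (η i) (η j) p.asIdeal).re * nm K p s) ∧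
      ∑' p : HeightOneSpectrum (𝓞 K), (cj (η i) (η j) p.asIdeal).re * nm K p s ≤ C := by
    intro i j hij
    apply re_sum_le (hcj1 i j)
    apply hL K hdeg N hN0 _ (hcj i j)
    obtain ⟨𝔭, ⟨hp1, hp2, hp3⟩, hp4⟩ := ((hne i j hij).sdiff
      (hfinN.image (fun 𝔭 : HeightOneSpectrum (𝓞 K) => 𝔭.asIdeal))).nonempty
    have hp5 : ¬ 𝔭 ∣ idl K N := by
      intro h
      exact hp4 ⟨⟨𝔭, hp1, hp2⟩, h, rfl⟩
    have hp6 : IsCoprime 𝔭 (idl K N) := hcop ⟨𝔭, hp1, hp2⟩ hp5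
    refine ⟨𝔭, hp2, hp6, fun h => hp3 ?_⟩
    have h1 : η i 𝔭 * starRingEnd ℂ (η j 𝔭) = 1 := h
    have h2 : ‖η j 𝔭‖ = 1 := (hηN j).norm_eq hN0 hp2 hp6
    have h3 : η j 𝔭 * starRingEnd ℂ (η j 𝔭) = 1 := by
      rw [Complex.mul_conj, Complex.normSq_eq_norm_sq, h2]
      simp
    have h4 : starRingEnd ℂ (η j 𝔭) ≠ 0 := right_ne_zero_of_mul_eq_one h3
    have h5 : η i 𝔭 = η j 𝔭 := mul_right_cancel₀ h4 (h1.trans h3.symm)
    rw [← restr_apply (ξ i) N hp6, ← restr_apply (ξ j) N hp6]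
    exact h5
  have hoff' : ∀ i j, ∃ C : ℝ, i ≠ j → ∀ᶠ s : ℝ in 𝓝[>] 1,
      (Summable fun p : HeightOneSpectrum (𝓞 K) => (cj (η i) (η j) p.asIdeal).re * nm K p s) ∧
      ∑' p : HeightOneSpectrum (𝓞 K), (cj (η i) (η j) p.asIdeal).re * nm K p s ≤ C := by
    intro i j
    by_cases hij : i = j
    · exact ⟨0, fun h => absurd hij h⟩
    · obtain ⟨C, hC⟩ := hoff i j hij
      exact ⟨C, fun _ => hC⟩
  choose C hC using hoff'
  have hC' : ∀ᶠ s : ℝ in 𝓝[>] 1, ∀ i j, i ≠ j →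
      (Summable fun p : HeightOneSpectrum (𝓞 K) => (cj (η i) (η j) p.asIdeal).re * nm K p s) ∧
      ∑' p : HeightOneSpectrum (𝓞 K), (cj (η i) (η j) p.asIdeal).re * nm K p s ≤ C i j := by
    rw [Filter.eventually_all]
    intro i
    rw [Filter.eventually_all]
    intro j
    by_cases hij : i = j
    · exact Filter.Eventually.of_forall fun s h => absurd hij h
    · filter_upwards [hC i j hij] with s hs _ using hs
  obtain ⟨C0, hC0⟩ := upper_real K
  obtain ⟨C1, hC1⟩ := split_lower K L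
  -- exceptional primes
  set S := {𝔭 : HeightOneSpectrum (𝓞 K) | Split K L 𝔭.asIdeal} with hS
  set E := {𝔭 : HeightOneSpectrum (𝓞 K) | 𝔭 ∈ S ∧ ∃ i, η i 𝔭.asIdeal ≠ 1} with hE
  have hEfin : E.Finite := by
    have h1 : (⋃ i, {𝔭 : HeightOneSpectrum (𝓞 K) | Split K L 𝔭.asIdeal ∧
        ξ i 𝔭.asIdeal ≠ 1}).Finite :=
      Set.finite_iUnion fun i => (hsp i).preimage hinj.injOn
    refine (h1.union hfinN).subset ?_
    rintro 𝔭 ⟨h2, i, h3⟩
    by_cases h4 : 𝔭.asIdeal ∣ idl K N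
    · exact Or.inr h4
    · left
      refine Set.mem_iUnion.2 ⟨i, h2, ?_⟩
      rwa [← restr_apply (ξ i) N (hcop 𝔭 h4)]
  have : Finite E := hEfin
  set m : ℕ := Nat.card E with hm
  -- the function
  set g : ℝ → HeightOneSpectrum (𝓞 K) → ℝ := fun s 𝔭 => ‖∑ i, η i 𝔭.asIdeal‖ ^ 2 * nm K 𝔭 s
    with hg
  have hg0 : ∀ s 𝔭, 0 ≤ g s 𝔭 := fun s 𝔭 => mul_nonneg (sq_nonneg _) (nm_nonneg 𝔭 s)
  have hexp : ∀ 𝔭 : HeightOneSpectrum (𝓞 K), ‖∑ i, η i 𝔭.asIdeal‖ ^ 2 =
      ∑ i, ∑ j, (cj (η i) (η j) 𝔭.asIdeal).re := by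
    intro 𝔭
    rw [← Complex.normSq_eq_norm_sq]
    have h1 : ((Complex.normSq (∑ i, η i 𝔭.asIdeal) : ℝ) : ℂ) =
        ∑ i, ∑ j, cj (η i) (η j) 𝔭.asIdeal := by
      rw [← Complex.mul_conj, map_sum, Finset.sum_mul_sum]
      rfl
    have h2 := congrArg Complex.re h1
    rw [Complex.ofReal_re] at h2
    rw [h2, Complex.re_sum]
    refine Finset.sum_congr rfl fun i _ => ?_
    rw [Complex.re_sum]
  set n : ℕ := Module.finrank K L with hn
  set h : ℕ := Fintype.card ι with hh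
  have hmain : ∀ᶠ s : ℝ in 𝓝[>] 1, ((h : ℝ) ^ 2) * Real.log (1 / (s - 1)) ≤
      ((n : ℝ) * h) * Real.log (1 / (s - 1)) +
        (n * (h * C0 + ∑ i, ∑ j, |C i j| + (h : ℝ) ^ 2 * m) + (h : ℝ) ^ 2 * C1) := by
    filter_upwards [hC', hC0, hC1, eventually_ne_top K, self_mem_nhdsWithin,
      tendsto_log_one_div.eventually_ge_atTop (|C0| + |C1|)] with s k1 k2 k3 k4 k5 k6
    have hs1 : (1 : ℝ) < s := k5
    have a1 := le_abs_self C1
    have a2 := neg_abs_le C0
    have a3 := abs_nonneg C0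
    have a4 := abs_nonneg C1
    have hsn := summable_nm k4
    -- upper bound
    have u1 : ∀ i j, (Summable fun p : HeightOneSpectrum (𝓞 K) =>
        (cj (η i) (η j) p.asIdeal).re * nm K p s) := by
      intro i j
      refine Summable.of_norm_bounded hsn fun p => ?_
      rw [norm_mul, Real.norm_of_nonneg (nm_nonneg p s)]
      apply mul_le_of_le_one_left (nm_nonneg p s)
      exact (Complex.abs_re_le_norm _).trans (hcj1 i j _)
    have u2 : ∀ i j, ∑' p : HeightOneSpectrum (𝓞 K), (cj (η i) (η j) p.asIdeal).re * nm K p s ≤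
        (if i = j then Real.log (1 / (s - 1)) + C0 else 0) + |C i j| := by
      intro i j
      by_cases hij : i = j
      · rw [if_pos hij]
        refine le_trans ?_ (k2.trans (le_add_of_nonneg_right (abs_nonneg _)))
        refine (u1 i j).tsum_le_tsum (fun p => ?_) hsn
        apply mul_le_of_le_one_left (nm_nonneg p s)
        exact (le_abs_self _).trans ((Complex.abs_re_le_norm _).trans (hcj1 i j _))
      · rw [if_neg hij, zero_add]
        exact (k1 i j hij).2.trans (le_abs_self _)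
    have u3 : Summable (g s) := by
      have : g s = fun 𝔭 => ∑ i, ∑ j, (cj (η i) (η j) 𝔭.asIdeal).re * nm K 𝔭 s := by
        funext 𝔭
        rw [hg]
        simp only
        rw [hexp, Finset.sum_mul]
        refine Finset.sum_congr rfl fun i _ => ?_
        rw [Finset.sum_mul]
      rw [this]
      exact summable_sum fun i _ => summable_sum fun j _ => u1 i j
    have u4 : ∑' 𝔭, g s 𝔭 ≤ h * (Real.log (1 / (s - 1)) + C0) + ∑ i, ∑ j, |C i j| := by
      have e1 : ∑' 𝔭, g s 𝔭 = ∑ i, ∑ j, ∑' p : HeightOneSpectrum (𝓞 K),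
          (cj (η i) (η j) p.asIdeal).re * nm K p s := by
        have : g s = fun 𝔭 => ∑ i, ∑ j, (cj (η i) (η j) 𝔭.asIdeal).re * nm K 𝔭 s := by
          funext 𝔭
          rw [hg]
          simp only
          rw [hexp, Finset.sum_mul]
          refine Finset.sum_congr rfl fun i _ => ?_
          rw [Finset.sum_mul]
        rw [this, Summable.tsum_finsetSum (fun i _ => summable_sum fun j _ => u1 i j)]
        refine Finset.sum_congr rfl fun i _ => ?_
        rw [Summable.tsum_finsetSum (fun j _ => u1 i j)]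
      rw [e1]
      calc ∑ i, ∑ j, ∑' p : HeightOneSpectrum (𝓞 K), (cj (η i) (η j) p.asIdeal).re * nm K p s
          ≤ ∑ i, ∑ j, ((if i = j then Real.log (1 / (s - 1)) + C0 else 0) + |C i j|) :=
            Finset.sum_le_sum fun i _ => Finset.sum_le_sum fun j _ => u2 i j
        _ = _ := by
            simp only [Finset.sum_add_distrib, Finset.sum_ite_eq, Finset.mem_univ, if_true]
            rw [Finset.sum_const, Finset.card_univ, nsmul_eq_mul, Finset.sum_const,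
              Finset.card_univ, nsmul_eq_mul]
            ring
    -- lower bound
    have l1 : ENNReal.ofReal ((h : ℝ) ^ 2) * splitSum K L s ≤
        ENNReal.ofReal (∑' 𝔭, g s 𝔭) + ENNReal.ofReal ((h : ℝ) ^ 2 * m) := by
      rw [ENNReal.ofReal_tsum_of_nonneg (hg0 s) u3, splitSum,
        tsum_subtype S (fun 𝔭 => ENNReal.ofReal (nm K 𝔭 s)), ← ENNReal.tsum_mul_left]
      have l2 : ∀ 𝔭 : HeightOneSpectrum (𝓞 K), ENNReal.ofReal ((h : ℝ) ^ 2) *
          S.indicator (fun 𝔭 => ENNReal.ofReal (nm K 𝔭 s)) 𝔭 ≤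
          ENNReal.ofReal (g s 𝔭) + E.indicator (fun _ => ENNReal.ofReal ((h : ℝ) ^ 2)) 𝔭 := by
        intro 𝔭
        by_cases hs : 𝔭 ∈ S
        · rw [Set.indicator_of_mem hs]
          by_cases he : 𝔭 ∈ E
          · rw [Set.indicator_of_mem he]
            refine le_trans ?_ le_add_self
            apply mul_le_of_le_one_right zero_le
            have := nm_le_half 𝔭 hs1.le
            exact ENNReal.ofReal_le_one.2 (by linarith)
          · have h1 : ∀ i, η i 𝔭.asIdeal = 1 := by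
              intro i
              by_contra hcon
              exact he ⟨hs, i, hcon⟩
            rw [Set.indicator_of_notMem he, add_zero, hg]
            simp only [h1]
            rw [← ENNReal.ofReal_mul (by positivity)]
            simp [hh]
        · rw [Set.indicator_of_notMem hs, mul_zero]
          exact zero_le
      refine (ENNReal.tsum_le_tsum l2).trans ?_
      rw [ENNReal.tsum_add]
      gcongr
      rw [← tsum_subtype, ENNReal.tsum_const, ENat.card_eq_coe_natCard, mul_comm,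
        ENNReal.ofReal_mul (by positivity), ENNReal.ofReal_natCast]
      rfl
    have l3 : ENNReal.ofReal ((h : ℝ) ^ 2 * (Real.log (1 / (s - 1)) - C1)) ≤
        ENNReal.ofReal (n * (∑' 𝔭, g s 𝔭 + (h : ℝ) ^ 2 * m)) := by
      rw [ENNReal.ofReal_mul (by positivity), ENNReal.ofReal_mul (by positivity),
        ENNReal.ofReal_add (tsum_nonneg (hg0 s)) (by positivity), ENNReal.ofReal_natCast]
      calc ENNReal.ofReal ((h : ℝ) ^ 2) * ENNReal.ofReal (Real.log (1 / (s - 1)) - C1)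
          ≤ ENNReal.ofReal ((h : ℝ) ^ 2) * ((n : ℝ≥0∞) * splitSum K L s) := by gcongr
        _ = (n : ℝ≥0∞) * (ENNReal.ofReal ((h : ℝ) ^ 2) * splitSum K L s) := by ring
        _ ≤ _ := by gcongr
    have hg1 : 0 ≤ ∑' 𝔭, g s 𝔭 := tsum_nonneg (hg0 s)
    rw [ENNReal.ofReal_le_ofReal_iff (by positivity)] at l3
    have hn0 : (0 : ℝ) ≤ n := Nat.cast_nonneg _
    nlinarith [mul_le_mul_of_nonneg_left u4 hn0]
  have h2 := of_log_le hmain
  have h3 : (0 : ℝ) < h := by exact_mod_cast hcard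
  have h4 : (h : ℝ) ≤ n := by nlinarith
  exact_mod_cast h4

end Vale.Agent.P022.H191
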