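import Vale.Agent.P022.H191.Unf
import Vale.Agent.P022.H191.Resid

/-! The squeeze: sums over a cone compared with a sum which does not depend on the residue. -/

namespace Vale.Agent.P022.H191

open NumberField Ideal IsDedekindDomain Filter Topology
open scoped ENNReal

section

variable {K : Type} [Field K] [NumberField K] {n : ℕ} (b : Module.Basis (Fin (n + 1)) ℚ K)
  (v : Fin (n + 1) → 𝓞 K)

theorem nrm_nonneg (x : K) : 0 ≤ nrm x := by
  unfold nrm
  exact_mod_cast abs_nonneg _

theorem one_le_nrm {α : 𝓞 K} (h : α ≠ 0) : 1 ≤ nrm (α : K) := by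
  rw [nrm_coe]
  have h1 : absNorm (Ideal.span {α}) ≠ 0 := by
    rw [Ne, absNorm_eq_zero_iff, Ideal.span_singleton_eq_bot]
    exact h
  exact_mod_cast Nat.one_le_iff_ne_zero.2 h1

include b in
theorem nrm_mul (m : ℕ) (α : 𝓞 K) : nrm (((m : 𝓞 K) * α : 𝓞 K) : K) =
    (m : ℝ) ^ (n + 1) * nrm (α : K) := by
  unfold nrm
  have h1 : (((m : 𝓞 K) * α : 𝓞 K) : K) = algebraMap ℚ K (m : ℚ) * (α : K) := by
    push_cast
    rfl
  rw [h1, map_mul, Algebra.norm_algebraMap, Module.finrank_eq_card_basis b, Fintype.card_fin,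
    abs_mul]
  push_cast
  simp

/-- the reference sum -/
noncomputable def Wf (s : ℝ) : ℝ≥0∞ :=
  ∑' i : Fin (n + 1) → ℕ, ENNReal.ofReal (nrm ((comb v (nz (i + 1)) : 𝓞 K) : K) ^ (-s))

/-- the boundary sum -/
noncomputable def Bf (s : ℝ) : ℝ≥0∞ :=
  ∑' i : {i : Fin (n + 1) → ℕ | i ≠ 0 ∧ ∃ j, i j = 0},
    ENNReal.ofReal (nrm ((comb v (nz i) : 𝓞 K) : K) ^ (-s))

theorem comb_ne_zero (hb : ∀ j, b j = (v j : K)) {i : Fin (n + 1) → ℕ} (hi : i ≠ 0) :
    comb v (nz i) ≠ 0 := by
  intro h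
  apply hi
  funext j
  have h1 := repr_comb b v hb (nz i) j
  rw [h] at h1
  have h2 : b.repr (((0 : 𝓞 K)) : K) = 0 := map_zero _
  rw [h2] at h1
  have h3 : (0 : ℚ) = ((i j : ℕ) : ℤ) := h1
  have h4 : (i j : ℚ) = 0 := by
    rw [Int.cast_natCast] at h3
    exact h3.symm
  exact_mod_cast h4

theorem comb_single (j : Fin (n + 1)) (a : ℕ) :
    comb v (nz (Pi.single j a)) = (a : 𝓞 K) * v j := by
  change ∑ l, ((nz (Pi.single j a) l : ℤ) : 𝓞 K) * v l = _
  rw [Finset.sum_eq_single j]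
  · unfold nz
    simp
  · intro l _ hl
    unfold nz
    simp [hl]
  · simp

include b in
/-- the boundary sum is bounded -/
theorem Bf_le (hb : ∀ j, b j = (v j : K)) (hn : n ≤ 1) : ∃ C : ℝ, ∀ s : ℝ, 1 ≤ s →
    Bf v s ≤ ENNReal.ofReal C := by
  classical
  refine ⟨2 * ∑' a : ℕ, ((a + 1 : ℕ) : ℝ) ^ (-2 : ℝ), fun s hs => ?_⟩
  have hsum : Summable fun a : ℕ => ((a + 1 : ℕ) : ℝ) ^ (-2 : ℝ) := by
    rw [summable_nat_add_iff 1 (f := fun a : ℕ => (a : ℝ) ^ (-2 : ℝ))]
    rw [Real.summable_nat_rpow]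
    norm_num
  rcases Nat.eq_zero_or_pos n with rfl | hn0
  · have hempty : IsEmpty {i : Fin (0 + 1) → ℕ | i ≠ 0 ∧ ∃ j, i j = 0} := by
      constructor
      rintro ⟨i, hi, j, hj⟩
      apply hi
      funext l
      have hlj : l = j := Fin.ext (by have := l.2; have := j.2; omega)
      rw [hlj, hj]
      rfl
    unfold Bf
    rw [tsum_empty]
    exact zero_le
  · obtain rfl : n = 1 := by omega
    have hsurj : ∀ i : {i : Fin (1 + 1) → ℕ | i ≠ 0 ∧ ∃ j, i j = 0},
        ∃ p : Fin 2 × ℕ, Pi.single p.1 (p.2 + 1) = (i : Fin (1 + 1) → ℕ) := by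
      rintro ⟨i, hi, j, hj⟩
      by_cases hj0 : j = 0
      · subst hj0
        have h1 : i 1 ≠ 0 := by
          intro h
          apply hi
          funext l
          fin_cases l
          · exact hj
          · exact h
        refine ⟨(1, i 1 - 1), ?_⟩
        funext l
        fin_cases l
        · simp [hj]
        · simp
          omega
      · have hj1 : j = 1 := by
          apply Fin.ext
          have h3 := j.2
          have h4 : (j : ℕ) ≠ 0 := fun h => hj0 (Fin.ext h)
          simp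
          omega
        subst hj1
        have h1 : i 0 ≠ 0 := by
          intro h
          apply hi
          funext l
          fin_cases l
          · exact h
          · exact hj
        refine ⟨(0, i 0 - 1), ?_⟩
        funext l
        fin_cases l
        · simp
          omega
        · simp [hj]
    choose p hp using hsurj
    have hinj : Function.Injective p := by
      intro i i' h
      apply Subtype.ext
      rw [← hp i, ← hp i', h]
    have h2 : ∀ i : {i : Fin (1 + 1) → ℕ | i ≠ 0 ∧ ∃ j, i j = 0},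
        ENNReal.ofReal (nrm ((comb v (nz i) : 𝓞 K) : K) ^ (-s)) ≤
        (fun q : Fin 2 × ℕ => ENNReal.ofReal (((q.2 + 1 : ℕ) : ℝ) ^ (-2 : ℝ))) (p i) := by
      intro i
      apply ENNReal.ofReal_le_ofReal
      rw [← hp i, comb_single, nrm_mul b]
      have hv : v (p i).1 ≠ 0 := by
        intro h
        have h3 := b.ne_zero (p i).1
        apply h3
        rw [hb, h]
        rfl
      have h3 := one_le_nrm hv
      have h4 : (1 : ℝ) ≤ ((p i).2 + 1 : ℕ) := by
        exact_mod_cast Nat.succ_le_succ (Nat.zero_le _)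
      have h5 : (1 : ℝ) ≤ (((p i).2 + 1 : ℕ) : ℝ) ^ (1 + 1) := one_le_pow₀ h4
      calc ((((p i).2 + 1 : ℕ) : ℝ) ^ (1 + 1) * nrm (v (p i).1 : K)) ^ (-s)
          ≤ ((((p i).2 + 1 : ℕ) : ℝ) ^ (1 + 1)) ^ (-s) := by
            apply Real.rpow_le_rpow_of_nonpos (by positivity) _ (by linarith)
            nlinarith
        _ ≤ ((((p i).2 + 1 : ℕ) : ℝ) ^ (1 + 1)) ^ (-1 : ℝ) :=
            Real.rpow_le_rpow_of_exponent_le h5 (by linarith)
        _ = (((p i).2 + 1 : ℕ) : ℝ) ^ (-2 : ℝ) := by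
            rw [← Real.rpow_natCast, ← Real.rpow_mul (by positivity)]
            norm_num
    refine (ENNReal.tsum_le_tsum h2).trans ?_
    refine (ENNReal.tsum_comp_le_tsum_of_injective hinj
      (fun q : Fin 2 × ℕ => ENNReal.ofReal (((q.2 + 1 : ℕ) : ℝ) ^ (-2 : ℝ)))).trans ?_
    rw [ENNReal.tsum_prod', tsum_fintype, Fin.sum_univ_two, ← two_mul,
      ENNReal.ofReal_mul (by norm_num), ENNReal.ofReal_tsum_of_nonneg (fun a => by positivity) hsum]
    simp

/-- the sum over the translates of a residue -/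
noncomputable def Ff (m : ℕ) (s : ℝ) (r : 𝓞 K) : ℝ≥0∞ :=
  ∑' i : Fin (n + 1) → ℕ, ENNReal.ofReal (nrm ((r + m * comb v (nz i) : 𝓞 K) : K) ^ (-s))

/-- monotonicity of the norm on the cone -/
def Mono (b : Module.Basis (Fin (n + 1)) ℚ K) : Prop :=
  ∀ x y : K, (∀ j, 0 ≤ b.repr x j) → (∀ j, b.repr x j ≤ b.repr y j) →
    |Algebra.norm ℚ x| ≤ |Algebra.norm ℚ y|

theorem Mono.nrm_le {b : Module.Basis (Fin (n + 1)) ℚ K} (h : Mono b) {x y : K}
    (hx : ∀ j, 0 ≤ b.repr x j) (hxy : ∀ j, b.repr x j ≤ b.repr y j) : nrm x ≤ nrm y := by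
  unfold nrm
  exact_mod_cast h x y hx hxy

theorem box_ne_zero {m : ℕ} {x : 𝓞 K} (h : InBox b m (x : K)) : x ≠ 0 := by
  rintro rfl
  exact h.cone.ne_zero rfl

theorem repr_mul_comb (hb : ∀ j, b j = (v j : K)) (m : ℕ) (i : Fin (n + 1) → ℤ)
    (j : Fin (n + 1)) : b.repr ((m * comb v i : 𝓞 K) : K) j = i j * m := by
  have h := repr_add_comb b v hb m 0 i j
  rw [zero_add] at h
  rw [h]
  have h2 : b.repr (((0 : 𝓞 K)) : K) = 0 := map_zero _
  rw [h2, Finsupp.zero_apply, zero_add]

theorem Ff_lower (hb : ∀ j, b j = (v j : K)) (hmono : Mono b) {m : ℕ} {s : ℝ} (hs : 0 ≤ s)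
    {r : 𝓞 K} (hr : InBox b m (r : K)) :
    ENNReal.ofReal (((m : ℝ) ^ (n + 1)) ^ (-s)) * Wf v s ≤ Ff v m s r := by
  unfold Wf Ff
  rw [← ENNReal.tsum_mul_left]
  refine ENNReal.tsum_le_tsum fun i => ?_
  rw [← ENNReal.ofReal_mul (by positivity), ← Real.mul_rpow (by positivity) (nrm_nonneg _),
    ← nrm_mul b]
  apply ENNReal.ofReal_le_ofReal
  have h1 := cone_add b v hb hr i
  have h2 : ((r + m * comb v (nz i) : 𝓞 K)) ≠ 0 := fun h => h1.ne_zero (by rw [h]; rfl)
  have h3 := one_le_nrm h2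
  apply Real.rpow_le_rpow_of_nonpos (by linarith) _ (by linarith)
  apply hmono.nrm_le h1.2
  intro j
  rw [repr_add_comb b v hb, repr_mul_comb b v hb]
  have h4 := hr j
  have h5 : b.repr (r : K) j ≤ m := by
    unfold bd at h4
    split_ifs at h4
    · linarith [h4.2]
    · linarith [h4.2]
  have h6 : ((nz (i + 1) j : ℤ) : ℚ) = (nz i j : ℚ) + 1 := by
    unfold nz
    simp
  rw [h6]
  linarith

theorem Ff_upper (hb : ∀ j, b j = (v j : K)) (hmono : Mono b) {m : ℕ} (hm : 0 < m) {s : ℝ}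
    (hs : 0 ≤ s) {r : 𝓞 K} (hr : InBox b m (r : K)) :
    Ff v m s r ≤ ENNReal.ofReal (((m : ℝ) ^ (n + 1)) ^ (-s)) * Wf v s + (1 + Bf v s) := by
  classical
  set c : ℝ≥0∞ := ENNReal.ofReal (((m : ℝ) ^ (n + 1)) ^ (-s)) with hc
  have hm1 : (1 : ℝ) ≤ (m : ℝ) ^ (n + 1) := one_le_pow₀ (by exact_mod_cast hm)
  have hc1 : c ≤ 1 := by
    rw [hc]
    apply ENNReal.ofReal_le_one.2
    rw [Real.rpow_neg (by positivity)]
    exact inv_le_one_of_one_le₀ (Real.one_le_rpow hm1 hs)
  set g : (Fin (n + 1) → ℕ) → ℝ≥0∞ := fun i =>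
    ENNReal.ofReal (nrm ((comb v (nz i) : 𝓞 K) : K) ^ (-s)) with hg
  set S1 : Set (Fin (n + 1) → ℕ) := {i | i ≠ 0 ∧ ∃ j, i j = 0} with hS1
  set S2 : Set (Fin (n + 1) → ℕ) := Set.range (fun i : Fin (n + 1) → ℕ => i + 1) with hS2
  have key : ∀ i : Fin (n + 1) → ℕ,
      ENNReal.ofReal (nrm ((r + m * comb v (nz i) : 𝓞 K) : K) ^ (-s)) ≤
      c * S2.indicator g i + (Set.indicator {0} (fun _ => 1) i + S1.indicator g i) := by
    intro i
    by_cases hi : i = 0
    · subst hi
      refine le_trans ?_ (le_add_left (le_add_right (le_of_eq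
        (Set.indicator_of_mem (Set.mem_singleton _) _).symm)))
      apply ENNReal.ofReal_le_one.2
      have h0 : comb v (nz (0 : Fin (n + 1) → ℕ)) = 0 := by
        have : nz (0 : Fin (n + 1) → ℕ) = 0 := by
          funext j
          simp [nz]
        rw [this, map_zero]
      rw [h0, mul_zero, add_zero, Real.rpow_neg (nrm_nonneg _)]
      exact inv_le_one_of_one_le₀ (Real.one_le_rpow (one_le_nrm (box_ne_zero b hr)) hs)
    · have h1 : ENNReal.ofReal (nrm ((r + m * comb v (nz i) : 𝓞 K) : K) ^ (-s)) ≤ c * g i := by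
        rw [hc, hg]
        simp only
        rw [← ENNReal.ofReal_mul (by positivity), ← Real.mul_rpow (by positivity) (nrm_nonneg _),
          ← nrm_mul b]
        apply ENNReal.ofReal_le_ofReal
        have h2 : (m : 𝓞 K) * comb v (nz i) ≠ 0 := by
          apply mul_ne_zero _ (comb_ne_zero b v hb hi)
          exact_mod_cast hm.ne'
        have h3 := one_le_nrm h2
        apply Real.rpow_le_rpow_of_nonpos (by linarith) _ (by linarith)
        apply hmono.nrm_le
        · intro j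
          rw [repr_mul_comb b v hb]
          unfold nz
          positivity
        · intro j
          rw [repr_add_comb b v hb, repr_mul_comb b v hb]
          have := hr.cone.2 j
          linarith
      by_cases h4 : ∃ j, i j = 0
      · have h5 : i ∈ S1 := ⟨hi, h4⟩
        refine h1.trans ?_
        rw [Set.indicator_of_mem h5]
        refine le_add_left (le_add_left ?_)
        exact mul_le_of_le_one_left zero_le hc1
      · push Not at h4
        have h5 : i ∈ S2 := by
          refine ⟨fun j => i j - 1, ?_⟩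
          funext j
          have := h4 j
          simp only [Pi.add_apply, Pi.one_apply]
          omega
        refine h1.trans ?_
        rw [Set.indicator_of_mem h5]
        exact le_self_add
  unfold Ff
  refine (ENNReal.tsum_le_tsum key).trans ?_
  rw [ENNReal.tsum_add, ENNReal.tsum_add, ENNReal.tsum_mul_left]
  have e1 : ∑' i, S2.indicator g i = Wf v s := by
    have hinj : Function.Injective (fun i : Fin (n + 1) → ℕ => i + 1) := fun i i' h =>
      add_right_cancel h
    rw [← hinj.tsum_eq (f := S2.indicator g) (by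
      intro i hi
      by_contra hcon
      exact hi (Set.indicator_of_notMem hcon _))]
    unfold Wf
    refine tsum_congr fun i => ?_
    rw [Set.indicator_of_mem (show i + 1 ∈ S2 from ⟨i, rfl⟩)]
  have e2 : ∑' i : Fin (n + 1) → ℕ, Set.indicator {0} (fun _ => (1 : ℝ≥0∞)) i = 1 := by
    rw [← tsum_subtype]
    simp
  have e3 : ∑' i, S1.indicator g i = Bf v s := by
    rw [← tsum_subtype]
    rfl
  rw [e1, e2, e3]

end

end Vale.Agent.P022.H191
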