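import Vale.Agent.P022.Iface

/-! Interface for the second inequality of class field theory over a field `K` of degree at
most two (packages P12b and P12c). -/

namespace Vale.Agent.P022.H191

open NumberField

/-- Narrow ray class character modulo `M`, extended by zero (for `M = 1` the zero ideal is
coprime to the modulus, hence the hypothesis `I ≠ ⊥`). -/
structure NRay {K : Type} [Field K] [NumberField K] (ξ : Ideal (𝓞 K) →*₀ ℂ) (M : ℕ) : Prop where
  supp : ∀ I, I ≠ ⊥ → (ξ I ≠ 0 ↔ IsCoprime I (idl K M))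
  princ : ∀ α : 𝓞 K, α ≠ 0 → α - 1 ∈ idl K M → (∀ σ : K →+* ℝ, 0 < σ α) →
    ξ (Ideal.span {α}) = 1

/-- `𝔭` splits completely in `L`: it is unramified and its Frobenius is trivial. -/
def Split (K L : Type) [Field K] [NumberField K] [Field L] [NumberField L] [Algebra K L]
    (𝔭 : Ideal (𝓞 K)) : Prop :=
  𝔭.IsPrime ∧ 𝔭 ≠ ⊥ ∧ Unram K L 𝔭 ∧ IsFrob K L 𝔭 1

/-- Second inequality: narrow ray class characters (of any moduli), pairwise different at
infinitely many primes, each trivial at almost all primes which split completely in `L`. -/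
def Second_statement : Prop :=
  ∀ (K L : Type) [Field K] [NumberField K] [Field L] [NumberField L] [Algebra K L],
    IsGalois K L → Module.finrank ℚ K ≤ 2 →
    ∀ (ι : Type) [Fintype ι] (M : ι → ℕ) (ξ : ι → (Ideal (𝓞 K) →*₀ ℂ)),
      (∀ i, 0 < M i) → (∀ i, NRay (ξ i) (M i)) →
      (∀ i j, i ≠ j → {𝔭 : Ideal (𝓞 K) | 𝔭.IsPrime ∧ 𝔭 ≠ ⊥ ∧ ξ i 𝔭 ≠ ξ j 𝔭}.Infinite) →
      (∀ i, {𝔭 : Ideal (𝓞 K) | Split K L 𝔭 ∧ ξ i 𝔭 ≠ 1}.Finite) →
      Fintype.card ι ≤ Module.finrank K L

/-- Bauer: if almost all primes which split completely in `L` split completely in `E` then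
`[E : K] ≤ [L : K]` (`K` any number field). -/
def Bauer_statement : Prop :=
  ∀ (K L E : Type) [Field K] [NumberField K] [Field L] [NumberField L] [Algebra K L]
    [Field E] [NumberField E] [Algebra K E],
    IsGalois K L → IsGalois K E →
    {𝔭 : Ideal (𝓞 K) | Split K L 𝔭 ∧ ¬ Split K E 𝔭}.Finite →
    Module.finrank K E ≤ Module.finrank K L

end Vale.Agent.P022.H191
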