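import Vale.Agent.P022.H191.Cone

/-! Unfolding: the partial zeta function as a sum over elements in cones. -/

namespace Vale.Agent.P022.H191

open NumberField Ideal IsDedekindDomain Filter Topology
open scoped ENNReal
open Vale.Agent.P001.H200.Ded

section

variable {K : Type} [Field K] [NumberField K]

/-- the elements of `𝔟` congruent to one modulo `M` -/
def A0 (M : ℕ) (𝔟 : Ideal (𝓞 K)) (α : 𝓞 K) : Prop := α ∈ 𝔟 ∧ α - 1 ∈ idl K M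

/-- absolute value of the norm -/
noncomputable def nrm (x : K) : ℝ := ((|Algebra.norm ℚ x| : ℚ) : ℝ)

theorem nrm_coe (α : 𝓞 K) : nrm (α : K) = (absNorm (Ideal.span {α}) : ℝ) := by
  unfold nrm
  rw [Ideal.absNorm_span_singleton]
  have h : Algebra.norm ℚ (α : K) = ((Algebra.norm ℤ α : ℤ) : ℚ) := by
    rw [← Algebra.coe_norm_int]
  rw [h]
  push_cast
  rw [Nat.cast_natAbs, Int.cast_abs]

theorem InCone.ne_zero {n : ℕ} {b : Module.Basis (Fin (n + 1)) ℚ K} {x : K} (h : InCone b x) :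
    x ≠ 0 := by
  rintro rfl
  have h0 : b.repr (0 : K) = 0 := map_zero _
  have h1 := h.1
  rw [h0] at h1
  exact lt_irrefl (0 : ℚ) h1

theorem ConeSys.totpos {M : ℕ} (S : ConeSys K M) {k : S.κ} {x : K} (h : InCone (S.b k) x)
    (σ : K →+* ℝ) : 0 < σ x := by
  have h1 := (S.b k).sum_repr x
  rw [← h1, map_sum]
  have h2 : ∀ j, σ ((S.b k).repr x j • S.b k j) = ((S.b k).repr x j : ℝ) * σ (S.v k j) := by
    intro j
    rw [Rat.smul_def, map_mul, map_ratCast, S.hb]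
  simp_rw [h2]
  apply Finset.sum_pos'
  · intro j _
    have h3 : (0 : ℝ) ≤ ((S.b k).repr x j : ℝ) := by exact_mod_cast h.2 j
    exact mul_nonneg h3 ((S.pos k σ).2 j)
  · refine ⟨0, Finset.mem_univ _, ?_⟩
    have h3 : (0 : ℝ) < ((S.b k).repr x 0 : ℝ) := by exact_mod_cast h.1
    exact mul_pos h3 (S.pos k σ).1

/-- the pairs (cone, element) over which we sum -/
def TT {M : ℕ} (S : ConeSys K M) (𝔟 : Ideal (𝓞 K)) : Set (S.κ × 𝓞 K) :=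
  {p | InCone (S.b p.1) (p.2 : K) ∧ A0 M 𝔟 p.2}

theorem exists_quot {M : ℕ} (S : ConeSys K M) {𝔟 : Ideal (𝓞 K)} (p : TT S 𝔟) :
    ∃ I : {I : Ideal (𝓞 K) // IsP M (I * 𝔟)}, I.1 * 𝔟 = Ideal.span {p.1.2} := by
  obtain ⟨⟨k, α⟩, h1, h2, h3⟩ := p
  have h4 : 𝔟 ∣ Ideal.span {α} := Ideal.dvd_span_singleton.2 h2
  obtain ⟨I, hI⟩ := h4
  have h5 : I * 𝔟 = Ideal.span {α} := by rw [hI, mul_comm]
  refine ⟨⟨I, α, ?_, h3, fun σ => S.totpos h1 σ, h5⟩, h5⟩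
  intro h0
  exact h1.ne_zero (by rw [h0]; rfl)

theorem mem_TT {M : ℕ} (S : ConeSys K M) {𝔟 : Ideal (𝓞 K)} {α : 𝓞 K} (hα : α ∈ 𝔟)
    (hα1 : α - 1 ∈ idl K M) (p : {p : S.κ × (𝓞 K)ˣ // UP M (p.2 : 𝓞 K) ∧
      InCone (S.b p.1) (((p.2 : 𝓞 K) * α : 𝓞 K) : K)}) :
    ((p.1.1, (p.1.2 : 𝓞 K) * α) : S.κ × 𝓞 K) ∈ TT S 𝔟 := by
  obtain ⟨⟨k, u⟩, hu, hc⟩ := p
  refine ⟨hc, Ideal.mul_mem_left _ _ hα, ?_⟩
  change (u : 𝓞 K) * α - 1 ∈ _
  have h : (u : 𝓞 K) * α - 1 = u * (α - 1) + (u - 1) := by ring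
  rw [h]
  exact Ideal.add_mem _ (Ideal.mul_mem_left _ _ hα1) hu.1

theorem fiber_card {M : ℕ} (S : ConeSys K M) {𝔟 : Ideal (𝓞 K)} (hb : 𝔟 ≠ ⊥)
    (q : TT S 𝔟 → {I : Ideal (𝓞 K) // IsP M (I * 𝔟)})
    (hq : ∀ p, (q p).1 * 𝔟 = Ideal.span {p.1.2}) (I : {I : Ideal (𝓞 K) // IsP M (I * 𝔟)}) :
    ENat.card (q ⁻¹' {I}) = S.w := by
  obtain ⟨I, α, hα0, hα1, hα2, hα3⟩ := I
  have hαb : α ∈ 𝔟 := Ideal.dvd_span_singleton.1 ⟨I, by rw [← hα3, mul_comm]⟩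
  rw [← S.count α hα0 hα2]
  symm
  have hqq : ∀ p : {p : S.κ × (𝓞 K)ˣ // UP M (p.2 : 𝓞 K) ∧
      InCone (S.b p.1) (((p.2 : 𝓞 K) * α : 𝓞 K) : K)},
      q ⟨_, mem_TT S hαb hα1 p⟩ = ⟨I, α, hα0, hα1, hα2, hα3⟩ := by
    intro p
    apply Subtype.ext
    have h3 := hq ⟨_, mem_TT S hαb hα1 p⟩
    have h4 : Ideal.span {(p.1.2 : 𝓞 K) * α} = Ideal.span {α} := by
      rw [Ideal.span_singleton_mul_left_unit p.1.2.isUnit]
    have h5 : (q ⟨_, mem_TT S hαb hα1 p⟩).1 * 𝔟 = I * 𝔟 := by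
      rw [h3, hα3]
      exact h4
    exact mul_right_cancel₀ (show 𝔟 ≠ 0 from hb) h5
  refine ENat.card_congr (Equiv.ofBijective
    (fun p => (⟨⟨_, mem_TT S hαb hα1 p⟩, hqq p⟩ : q ⁻¹' {_})) ⟨?_, ?_⟩)
  · rintro ⟨⟨k, u⟩, hu⟩ ⟨⟨k', u'⟩, hu'⟩ h
    have h3 := congrArg (fun x => x.1.1) h
    simp only [Prod.mk.injEq] at h3
    obtain ⟨rfl, h4⟩ := h3
    have h5 : u = u' := Units.ext (mul_right_cancel₀ hα0 h4)
    subst h5
    rfl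
  · rintro ⟨⟨⟨k, β⟩, hβ⟩, hI⟩
    have h3 := hq ⟨⟨k, β⟩, hβ⟩
    have h4 : (q ⟨⟨k, β⟩, hβ⟩).1 = I := congrArg Subtype.val hI
    rw [h4, hα3] at h3
    obtain ⟨u, hu⟩ := Ideal.span_singleton_eq_span_singleton.1 h3
    have hβ' : β = u * α := by
      have h5 : α * (u : 𝓞 K) = β := hu
      rw [← h5, mul_comm]
    have hup : UP M (u : 𝓞 K) := by
      constructor
      · have h6 : (u : 𝓞 K) - 1 = (β - 1) - u * (α - 1) := by rw [hβ']; ring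
        rw [h6]
        exact Ideal.sub_mem _ hβ.2.2 (Ideal.mul_mem_left _ _ hα1)
      · intro σ
        have h6 := S.totpos hβ.1 σ
        have h7 : ((β : 𝓞 K) : K) = ((u : 𝓞 K) : K) * (α : K) := by rw [hβ']; rfl
        change 0 < σ ((β : 𝓞 K) : K) at h6
        rw [h7, map_mul] at h6
        exact (pos_iff_pos_of_mul_pos h6).2 (hα2 σ)
    refine ⟨⟨(k, u), hup, ?_⟩, ?_⟩
    · have := hβ.1
      rw [← hβ']
      exact this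
    · apply Subtype.ext
      apply Subtype.ext
      change (k, (u : 𝓞 K) * α) = (k, β)
      rw [hβ']

theorem unfold_sum {M : ℕ} (S : ConeSys K M) {𝔟 : Ideal (𝓞 K)} (hb : 𝔟 ≠ ⊥) (s : ℝ) :
    ∑' p : TT S 𝔟, ENNReal.ofReal (nrm (p.1.2 : K) ^ (-s)) =
      (S.w : ℝ≥0∞) * (ENNReal.ofReal ((absNorm 𝔟 : ℝ) ^ (-s)) * Zb M 𝔟 s) := by
  classical
  choose q hq using exists_quot S (𝔟 := 𝔟)
  rw [← ENNReal.tsum_fiberwise _ q, Zb, ← ENNReal.tsum_mul_left, ← ENNReal.tsum_mul_left]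
  refine tsum_congr fun I => ?_
  have h1 : ∀ p : q ⁻¹' {I}, ENNReal.ofReal (nrm (p.1.1.2 : K) ^ (-s)) =
      ENNReal.ofReal ((absNorm 𝔟 : ℝ) ^ (-s)) * ENNReal.ofReal ((absNorm I.1 : ℝ) ^ (-s)) := by
    intro p
    have h2 : q p.1 = I := p.2
    rw [nrm_coe, ← hq p.1, h2, map_mul, ← ENNReal.ofReal_mul (by positivity)]
    push_cast
    rw [Real.mul_rpow (by positivity) (by positivity), mul_comm]
  rw [tsum_congr h1, ENNReal.tsum_const, fiber_card S hb q hq I]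
  rfl

end

end Vale.Agent.P022.H191
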